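import Vale.Agent.Lib.P345h27.Good

/-! # Quantification over sign changes and over roots -/

namespace Vale.Agent.P345h27

section fam

variable {σ : Type}

/-- The gaps between sign changes. -/
theorem gap_sign {g : (σ → ℕ) → ℕ → ℤ} {d : ℕ} (hg : DF d g) :
    Gap (fun x y => ¬ (0 ≤ g x y ↔ 0 ≤ g x (y + 1))) := by
  have aux : ∀ (q : ℕ → ℤ) (u w : ℕ), (∀ y, u ≤ y → y < w → ¬ ¬ (0 ≤ q y ↔ 0 ≤ q (y + 1))) ↔
      (w ≤ u ∨ ((u < w ∧ ∀ y, u ≤ y → y < w + 1 → 0 ≤ q y) ∨
        (u < w ∧ ∀ y, u ≤ y → y < w + 1 → q y < 0))) := by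
    intro q u w
    constructor
    · intro h
      by_cases huw : w ≤ u
      · exact Or.inl huw
      · refine Or.inr ?_
        by_cases hu : 0 ≤ q u
        · left
          refine ⟨by omega, ?_⟩
          intro y hy1
          induction y, hy1 using Nat.le_induction with
          | base => intro _; exact hu
          | succ y hy ih =>
            intro hy2
            exact (not_not.mp (h y hy (by omega))).mp (ih (by omega))
        · right
          refine ⟨by omega, ?_⟩
          intro y hy1
          induction y, hy1 using Nat.le_induction with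
          | base => intro _; omega
          | succ y hy ih =>
            intro hy2
            have h1 := ih (by omega)
            have h2 := not_not.mp (h y hy (by omega))
            by_contra h3
            have := h2.mpr (by omega)
            omega
    · rintro (h | ⟨h0, h⟩ | ⟨h0, h⟩) y hy1 hy2
      · omega
      · have h1 := h y hy1 (by omega)
        have h2 := h (y + 1) (by omega) (by omega)
        exact not_not.mpr ⟨fun _ => h2, fun _ => h1⟩
      · have h1 := h y hy1 (by omega)
        have h2 := h (y + 1) (by omega) (by omega)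
        exact not_not.mpr ⟨fun _ => by omega, fun _ => by omega⟩
  have auxi : ∀ (q : ℕ → ℤ) (u : ℕ), (∀ y, u ≤ y → ¬ ¬ (0 ≤ q y ↔ 0 ≤ q (y + 1))) ↔
      ((∀ y, u ≤ y → 0 ≤ q y) ∨ (∀ y, u ≤ y → q y < 0)) := by
    intro q u
    constructor
    · intro h
      by_cases hu : 0 ≤ q u
      · left
        intro y hy1
        induction y, hy1 using Nat.le_induction with
        | base => exact hu
        | succ y hy ih => exact (not_not.mp (h y hy)).mp ih
      · right
        intro y hy1
        induction y, hy1 using Nat.le_induction with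
        | base => omega
        | succ y hy ih =>
          have h2 := not_not.mp (h y hy)
          by_contra h3
          have := h2.mpr (by omega)
          omega
    · rintro (h | h) y hy1
      · have h1 := h y hy1
        have h2 := h (y + 1) (by omega)
        exact not_not.mpr ⟨fun _ => h2, fun _ => h1⟩
      · have h1 := h y hy1
        have h2 := h (y + 1) (by omega)
        exact not_not.mpr ⟨fun _ => by omega, fun _ => by omega⟩
  have plus : ∀ (τ : Type) (u : (τ → ℕ) → ℕ), PolyFn (fun x => (u x : ℤ)) →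
      PolyFn (fun x => ((u x + 1 : ℕ) : ℤ)) := by
    intro τ u hu
    have h1 := hu.add (PolyFn.const 1)
    have e : (fun x => ((u x + 1 : ℕ) : ℤ)) = fun x => ((u x : ℕ) : ℤ) + 1 := by
      funext x
      push_cast
      rfl
    rw [e]
    exact h1
  constructor
  · intro τ h hh u w hu hw
    have hg' : DF d (fun (x : τ → ℕ) y => g (h x) y) := hg.pull hh
    refine ((SF.le hw hu).or
      (((SF.lt hu hw).and (sf_A d τ _ hg' u (fun x => w x + 1) hu (plus τ w hw))).or
        ((SF.lt hu hw).and (sf_neg (sf_A d) hg' hu (plus τ w hw))) ?_) ?_).congr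
      (fun x => aux (g (h x)) (u x) (w x))
    · rintro x ⟨h0, h1⟩ ⟨_, h2⟩
      have a1 := h1 (u x) le_rfl (by omega)
      have a2 := h2 (u x) le_rfl (by omega)
      omega
    · rintro x h1 (⟨h2, _⟩ | ⟨h2, _⟩) <;> omega
  · intro τ h hh u hu
    have hg' : DF d (fun (x : τ → ℕ) y => g (h x) y) := hg.pull hh
    have hneg : SF (fun x : τ → ℕ => ∀ y, u x ≤ y → g (h x) y < 0) := by
      refine (sf_Ai d τ _ hg'.negsub u hu).congr (fun x => ?_)
      constructor
      · intro h y h1
        have := h y h1
        omega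
      · intro h y h1
        have := h y h1
        omega
    refine ((sf_Ai d τ _ hg' u hu).or hneg ?_).congr (fun x => auxi (g (h x)) (u x))
    intro x h1 h2
    have a1 := h1 (u x) le_rfl
    have a2 := h2 (u x) le_rfl
    omega
  · intro τ h hh u hu
    have hg' : DF d (fun (x : τ → ℕ) y => g (h x) y) := hg.pull hh
    have g1 : Good (fun x : τ → ℕ => 0 ≤ g (h x) (u x)) := Good.nonneg (hg'.eval hu)
    have g2 : Good (fun x : τ → ℕ => 0 ≤ g (h x) (u x + 1)) :=
      Good.nonneg (hg'.eval (plus τ u hu))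
    refine (((g1.and g2.not).or (g1.not.and g2)).congr (fun x => ?_)).1
    by_cases h1 : 0 ≤ g (h x) (u x) <;> by_cases h2 : 0 ≤ g (h x) (u x + 1) <;> simp [h1, h2]

end fam

section more

variable {σ : Type}

theorem card_le_cnt (q : ℕ → ℤ) (n : ℕ) (F : Finset ℕ)
    (hF : ∀ y ∈ F, y < n ∧ ¬ (0 ≤ q y ↔ 0 ≤ q (y + 1))) : F.card ≤ cnt q 0 n := by
  classical
  have h : ∀ n, cnt q 0 n = ((Finset.range n).filter
      (fun y => ¬ (0 ≤ q y ↔ 0 ≤ q (y + 1)))).card := by
    intro n
    induction n with
    | zero => simp [cnt]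
    | succ n ih =>
      rw [cnt, ih, Finset.range_add_one, Finset.filter_insert, Nat.zero_add]
      by_cases hc : (0 ≤ q n ↔ 0 ≤ q (n + 1))
      · rw [if_pos hc, if_neg (not_not.mpr hc), Nat.add_zero]
      · rw [if_neg hc, if_pos hc, Finset.card_insert_of_notMem]
        simp
  rw [h n]
  apply Finset.card_le_card
  intro y hy
  rw [Finset.mem_filter, Finset.mem_range]
  exact hF y hy

/-- One unbounded quantifier over sign conditions on finitely many polynomial families. -/
theorem good_exists {k : ℕ} {g : Fin k → (σ → ℕ) → ℕ → ℤ} (hg : ∀ i, ∃ d, DF d (g i))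
    (Φ : (Fin k → Prop) → Prop) :
    Good (fun x => ∃ y, Φ (fun i => 0 ≤ g i x y)) := by
  choose d hd using hg
  have h0 : PolyFn (fun _ : σ → ℕ => ((0 : ℕ) : ℤ)) := PolyFn.const 0
  -- the sign pattern at the origin
  have hzero : Good (fun x : σ → ℕ => Φ (fun i => 0 ≤ g i x 0)) :=
    Good.bool (fun i => Good.nonneg ((hd i).eval (u := fun _ => 0) h0)) Φ
  -- the sign pattern just after a point
  have hT : Good (fun z : Option σ → ℕ => Φ (fun i => 0 ≤ g i (tl z) (z none + 1))) := by
    apply Good.bool
    intro i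
    apply Good.nonneg
    have hg' : DF (d i) (fun (z : Option σ → ℕ) y => g i (tl z) y) := (hd i).pull tl_poly
    apply hg'.eval (u := fun z => z none + 1)
    have h1 : PolyFn (fun z : Option σ → ℕ => ((z none : ℕ) : ℤ) + 1) :=
      (PolyFn.coord none).add (PolyFn.const 1)
    have e : (fun z : Option σ → ℕ => ((z none + 1 : ℕ) : ℤ))
        = fun z => ((z none : ℕ) : ℤ) + 1 := by
      funext z
      push_cast
      rfl
    rw [e]
    exact h1
  have hi : ∀ i : Fin k, Good (fun x => True ∧ ∃ y, ¬ (0 ≤ g i x y ↔ 0 ≤ g i x (y + 1)) ∧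
      (fun z : Option σ → ℕ => Φ (fun i => 0 ≤ g i (tl z) (z none + 1))) (ocons y x)) := by
    intro i
    apply Good.quant (gap_sign (hd i)) hT Good.tt (d i)
    intro x _ F hF
    have h1 := card_le_cnt (g i x) (F.sup id + 1) F (fun y hy =>
      ⟨Nat.lt_succ_of_le (Finset.le_sup (f := id) hy), hF y hy⟩)
    exact h1.trans (cnt_le (d i) (hd i) x 0 _)
  refine (hzero.or (Good.ex_fin hi)).congr (fun x => ?_)
  constructor
  · intro hex
    classical
    have hspec := Nat.find_spec hex
    rcases Nat.eq_zero_or_pos (Nat.find hex) with h | h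
    · left
      rw [h] at hspec
      exact hspec
    · right
      obtain ⟨m, hm⟩ : ∃ m, Nat.find hex = m + 1 := ⟨Nat.find hex - 1, by omega⟩
      have hmin := Nat.find_min hex (m := m) (by omega)
      rw [hm] at hspec
      by_contra hcon
      apply hmin
      have hall : ∀ i, (0 ≤ g i x m ↔ 0 ≤ g i x (m + 1)) := by
        intro i
        by_contra hc
        exact hcon ⟨i, trivial, m, hc, hspec⟩
      have e : (fun i => 0 ≤ g i x m) = fun i => 0 ≤ g i x (m + 1) := by
        funext i
        exact propext (hall i)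
      rw [e]
      exact hspec
  · rintro (h | ⟨i, _, y, _, h⟩)
    · exact ⟨0, h⟩
    · exact ⟨y + 1, h⟩

/-- The gaps between roots. -/
theorem gap_root {g : (σ → ℕ) → ℕ → ℤ} (hg : PolyFn (joint g)) :
    Gap (fun x y => g x y = 0) := by
  have hsq : PolyFn (fun z : Option σ → ℕ => joint g z * joint g z - 1) :=
    (hg.mul hg).sub (PolyFn.const 1)
  obtain ⟨d, hd⟩ := DF.exists hsq
  obtain ⟨e, he⟩ := DF.exists hg
  have hd' : DF d (fun (x : σ → ℕ) (y : ℕ) => g x y * g x y - 1) := hd
  have he' : DF e (fun (x : σ → ℕ) (y : ℕ) => g x y) := he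
  have aux : ∀ a : ℤ, a ≠ 0 ↔ 0 ≤ a * a - 1 := by
    intro a
    constructor
    · intro h
      rcases lt_or_gt_of_ne h with h | h <;> nlinarith
    · rintro h rfl
      omega
  constructor
  · intro τ h hh u w hu hw
    refine (sf_A d τ _ (hd'.pull hh) u w hu hw).congr (fun x => ?_)
    exact forall_congr' (fun y => forall_congr' (fun _ => forall_congr' (fun _ => aux _)))
  · intro τ h hh u hu
    refine (sf_Ai d τ _ (hd'.pull hh) u hu).congr (fun x => ?_)
    exact forall_congr' (fun y => forall_congr' (fun _ => aux _))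
  · intro τ h hh u hu
    exact SF.eq_zero ((he'.pull hh).eval hu)

/-- Values of a polynomial in several variables along the last one. -/
theorem exists_poly (P : MvPolynomial (Option σ) ℤ) : ∃ d : ℕ, ∀ x : σ → ℕ,
    ∃ Q : Polynomial ℤ, Q.natDegree ≤ d ∧ ∀ y : ℕ, Q.eval (y : ℤ) = val P (ocons y x) := by
  induction P using MvPolynomial.induction_on with
  | C a =>
    exact ⟨0, fun x => ⟨Polynomial.C a, by simp, fun y => by simp [val]⟩⟩
  | add p q hp hq =>
    obtain ⟨d, hd⟩ := hp
    obtain ⟨e, he⟩ := hq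
    refine ⟨max d e, fun x => ?_⟩
    obtain ⟨Q, hQ1, hQ2⟩ := hd x
    obtain ⟨R, hR1, hR2⟩ := he x
    refine ⟨Q + R, (Polynomial.natDegree_add_le _ _).trans (max_le_max hQ1 hR1), fun y => ?_⟩
    rw [Polynomial.eval_add, hQ2, hR2]
    simp [val]
  | mul_X p i hp =>
    obtain ⟨d, hd⟩ := hp
    refine ⟨d + 1, fun x => ?_⟩
    obtain ⟨Q, hQ1, hQ2⟩ := hd x
    rcases i with _ | i
    · refine ⟨Q * Polynomial.X, ?_, fun y => ?_⟩
      · refine (Polynomial.natDegree_mul_le).trans ?_
        rw [Polynomial.natDegree_X]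
        omega
      · rw [Polynomial.eval_mul, Polynomial.eval_X, hQ2]
        simp [val, ocons]
    · refine ⟨Q * Polynomial.C (x i : ℤ), ?_, fun y => ?_⟩
      · refine (Polynomial.natDegree_mul_le).trans ?_
        rw [Polynomial.natDegree_C]
        omega
      · rw [Polynomial.eval_mul, Polynomial.eval_C, hQ2]
        simp [val, ocons]

/-- Quantification over the roots of a polynomial that does not vanish identically. -/
theorem good_roots {g : (σ → ℕ) → ℕ → ℤ} (hg : PolyFn (joint g)) {T : (Option σ → ℕ) → Prop}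
    (hT : Good T) :
    Good (fun x => (∃ y, g x y ≠ 0) ∧ ∃ y, g x y = 0 ∧ T (ocons y x)) := by
  obtain ⟨e, he⟩ := DF.exists hg
  have he' : DF e (fun (x : σ → ℕ) (y : ℕ) => g x y) := he
  have hG : Good (fun x => ∃ y, g x y ≠ 0) := by
    have hg2 : ∀ i : Fin 2, ∃ d, DF d ((fun i : Fin 2 => fun (x : σ → ℕ) (y : ℕ) =>
        if i = 0 then g x y else -1 * g x y) i) := by
      intro i
      by_cases hi : i = 0
      · refine ⟨e, ?_⟩
        simp only [hi, if_true]
        exact he'
      · refine ⟨e, ?_⟩
        simp only [hi, if_false]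
        exact DF.smul (PolyFn.const (-1)) he'
    have h1 := good_exists hg2 (fun v : Fin 2 → Prop => ¬ (v 0 ∧ v 1))
    refine h1.congr (fun x => exists_congr (fun y => ?_))
    simp
    omega
  obtain ⟨P, hP⟩ := hg
  obtain ⟨d, hd⟩ := exists_poly P
  refine Good.quant (gap_root ⟨P, hP⟩) hT hG d ?_
  rintro x ⟨y0, hy0⟩ F hF
  obtain ⟨Q, hQ1, hQ2⟩ := hd x
  have hval : ∀ y : ℕ, Q.eval (y : ℤ) = g x y := fun y => (hQ2 y).trans (hP _)
  have hQ0 : Q ≠ 0 := by
    rintro rfl
    apply hy0
    rw [← hval]
    simp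
  have h1 : (F.image (fun y : ℕ => (y : ℤ))) ⊆ Q.roots.toFinset := by
    intro z hz
    obtain ⟨y, hy, rfl⟩ := Finset.mem_image.mp hz
    rw [Multiset.mem_toFinset, Polynomial.mem_roots hQ0]
    show Q.eval (y : ℤ) = 0
    rw [hval]
    exact hF y hy
  have h2 : (F.image (fun y : ℕ => (y : ℤ))).card = F.card :=
    Finset.card_image_of_injective F Nat.cast_injective
  rw [← h2]
  calc (F.image (fun y : ℕ => (y : ℤ))).card ≤ Q.roots.toFinset.card := Finset.card_le_card h1
    _ ≤ Q.roots.card := Multiset.toFinset_card_le _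
    _ ≤ Q.natDegree := Polynomial.card_roots' Q
    _ ≤ d := hQ1

end more

end Vale.Agent.P345h27
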