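import Vale.Agent.Lib.P345h27.Main

/-! # Predicates that are single-fold together with their complement -/

namespace Vale.Agent.P345h27

/-- Both `p` and its negation are single-fold Diophantine. -/
def Good {σ : Type} (p : (σ → ℕ) → Prop) : Prop := SF p ∧ SF (fun x => ¬ p x)

section good

variable {σ τ : Type}

theorem Good.congr {p q : (σ → ℕ) → Prop} (hp : Good p) (h : ∀ x, q x ↔ p x) : Good q :=
  ⟨hp.1.congr h, hp.2.congr (fun x => not_congr (h x))⟩

theorem Good.not {p : (σ → ℕ) → Prop} (hp : Good p) : Good (fun x => ¬ p x) :=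
  ⟨hp.2, hp.1.congr (fun _ => not_not)⟩

theorem Good.and {p q : (σ → ℕ) → Prop} (hp : Good p) (hq : Good q) :
    Good (fun x => p x ∧ q x) := by
  refine ⟨hp.1.and hq.1, ?_⟩
  refine (hp.2.or (hp.1.and hq.2) ?_).congr (fun x => ?_)
  · rintro x h1 ⟨h2, _⟩
    exact h1 h2
  · by_cases h1 : p x <;> by_cases h2 : q x <;> simp [h1, h2]

theorem Good.or {p q : (σ → ℕ) → Prop} (hp : Good p) (hq : Good q) :
    Good (fun x => p x ∨ q x) :=
  ((hp.not.and hq.not).not).congr (fun x => by
    by_cases h1 : p x <;> by_cases h2 : q x <;> simp [h1, h2])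

theorem Good.nonneg {f : (σ → ℕ) → ℤ} (hf : PolyFn f) : Good (fun x => 0 ≤ f x) :=
  ⟨SF.nonneg hf, (SF.neg_lt hf).congr (fun _ => not_le)⟩

theorem Good.tt : Good (fun _ : σ → ℕ => True) :=
  ⟨SF.true, SF.false.congr (fun _ => by simp)⟩

theorem Good.ff : Good (fun _ : σ → ℕ => False) :=
  ⟨SF.false, SF.true.congr (fun _ => by simp)⟩

theorem Good.const (c : Prop) : Good (fun _ : σ → ℕ => c) := by
  by_cases hc : c
  · exact Good.tt.congr (fun _ => by simp [hc])
  · exact Good.ff.congr (fun _ => by simp [hc])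

theorem Good.bool {k : ℕ} {p : Fin k → (σ → ℕ) → Prop} (hp : ∀ i, Good (p i))
    (Φ : (Fin k → Prop) → Prop) : Good (fun x => Φ (fun i => p i x)) := by
  induction k with
  | zero =>
    refine (Good.const (Φ (fun i => i.elim0))).congr (fun x => ?_)
    have e : (fun i : Fin 0 => p i x) = fun i => i.elim0 := by
      funext i
      exact i.elim0
    rw [e]
  | succ k ih =>
    have h1 := ih (fun i => hp i.succ) (fun v => Φ (Fin.cons True v))
    have h2 := ih (fun i => hp i.succ) (fun v => Φ (Fin.cons False v))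
    refine (((hp 0).and h1).or ((hp 0).not.and h2)).congr (fun x => ?_)
    by_cases h0 : p 0 x
    · have e : (fun i : Fin (k + 1) => p i x)
          = (Fin.cons True (fun i : Fin k => p i.succ x) : Fin (k + 1) → Prop) := by
        funext i
        refine Fin.cases ?_ (fun j => ?_) i
        · simp [h0]
        · simp
      rw [e]
      simp [h0]
    · have e : (fun i : Fin (k + 1) => p i x)
          = (Fin.cons False (fun i : Fin k => p i.succ x) : Fin (k + 1) → Prop) := by
        funext i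
        refine Fin.cases ?_ (fun j => ?_) i
        · simp [h0]
        · simp
      rw [e]
      simp [h0]

theorem Good.subst {p : (σ → ℕ) → Prop} (hp : Good p) {h : (τ → ℕ) → σ → ℕ}
    (hh : ∀ i, PolyFn (fun x => (h x i : ℤ))) : Good (fun x => p (h x)) :=
  ⟨hp.1.subst hh, hp.2.subst hh⟩

theorem Good.ex_fin {k : ℕ} {p : Fin k → (σ → ℕ) → Prop} (hp : ∀ i, Good (p i)) :
    Good (fun x => ∃ i, p i x) :=
  Good.bool hp (fun v => ∃ i, v i)

end good

/-- A family of subsets of `ℕ` all of whose gaps are single-fold. -/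
structure Gap {σ : Type} (Y : (σ → ℕ) → ℕ → Prop) : Prop where
  bdd : ∀ (τ : Type) (h : (τ → ℕ) → σ → ℕ), (∀ i, PolyFn (fun x => (h x i : ℤ))) →
    ∀ (u w : (τ → ℕ) → ℕ), PolyFn (fun x => (u x : ℤ)) → PolyFn (fun x => (w x : ℤ)) →
      SF (fun x => ∀ y, u x ≤ y → y < w x → ¬ Y (h x) y)
  inf : ∀ (τ : Type) (h : (τ → ℕ) → σ → ℕ), (∀ i, PolyFn (fun x => (h x i : ℤ))) →
    ∀ (u : (τ → ℕ) → ℕ), PolyFn (fun x => (u x : ℤ)) → SF (fun x => ∀ y, u x ≤ y → ¬ Y (h x) y)
  mem : ∀ (τ : Type) (h : (τ → ℕ) → σ → ℕ), (∀ i, PolyFn (fun x => (h x i : ℤ))) →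
    ∀ (u : (τ → ℕ) → ℕ), PolyFn (fun x => (u x : ℤ)) → SF (fun x => Y (h x) (u x))

/-- `Y` has exactly `k` elements `≥ u`, and `b` tells whether one of them is in `T`. -/
def FG (Y T : ℕ → Prop) : ℕ → Bool → ℕ → Prop
  | 0, b, u => b = false ∧ ∀ z, u ≤ z → ¬ Y z
  | k + 1, b, u => ∃ y, (u ≤ y ∧ (∀ z, u ≤ z → z < y → ¬ Y z) ∧ Y y) ∧
      ((T y ∧ b = true ∧ (FG Y T k true (y + 1) ∨ FG Y T k false (y + 1))) ∨
        (¬ T y ∧ FG Y T k b (y + 1)))

section fg

variable {Y T : ℕ → Prop}

theorem first_unique {u y y' : ℕ} (h : u ≤ y ∧ (∀ z, u ≤ z → z < y → ¬ Y z) ∧ Y y)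
    (h' : u ≤ y' ∧ (∀ z, u ≤ z → z < y' → ¬ Y z) ∧ Y y') : y = y' := by
  rcases lt_trichotomy y y' with hlt | heq | hlt
  · exact (h'.2.1 y h.1 hlt h.2.2).elim
  · exact heq
  · exact (h.2.1 y' h'.1 hlt h'.2.2).elim

theorem FG.disjoint {k k' : ℕ} {b b' : Bool} {u : ℕ} (H : FG Y T k b u) (H' : FG Y T k' b' u) :
    k = k' ∧ b = b' := by
  induction k generalizing k' b b' u with
  | zero =>
    cases k' with
    | zero => exact ⟨rfl, H.1.trans H'.1.symm⟩
    | succ k' =>
      obtain ⟨y, hy, _⟩ := H'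
      exact (H.2 y hy.1 hy.2.2).elim
  | succ k ih =>
    obtain ⟨y, hy, hrest⟩ := H
    cases k' with
    | zero => exact (H'.2 y hy.1 hy.2.2).elim
    | succ k' =>
      obtain ⟨y', hy', hrest'⟩ := H'
      obtain rfl := first_unique hy hy'
      rcases hrest with ⟨t1, rfl, h1⟩ | ⟨t1, h1⟩ <;> rcases hrest' with ⟨t2, rfl, h2⟩ | ⟨t2, h2⟩
      · refine ⟨?_, rfl⟩
        rcases h1 with h1 | h1 <;> rcases h2 with h2 | h2 <;> rw [(ih h1 h2).1]
      · exact (t2 t1).elim
      · exact (t1 t2).elim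
      · obtain ⟨e1, e2⟩ := ih h1 h2
        exact ⟨by rw [e1], e2⟩

theorem FG.sound {k : ℕ} {b : Bool} {u : ℕ} (H : FG Y T k b u) :
    b = true ↔ ∃ y, u ≤ y ∧ Y y ∧ T y := by
  induction k generalizing b u with
  | zero =>
    obtain ⟨rfl, h⟩ := H
    constructor
    · intro h
      exact absurd h (by decide)
    · rintro ⟨y, h1, h2, _⟩
      exact (h y h1 h2).elim
  | succ k ih =>
    obtain ⟨y, hy, hrest⟩ := H
    rcases hrest with ⟨t1, rfl, h1⟩ | ⟨t1, h1⟩
    · exact ⟨fun _ => ⟨y, hy.1, hy.2.2, t1⟩, fun _ => rfl⟩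
    · rw [ih h1]
      constructor
      · rintro ⟨z, hz1, hz2⟩
        exact ⟨z, by omega, hz2⟩
      · rintro ⟨z, hz1, hz2, hz3⟩
        rcases lt_trichotomy z y with hlt | rfl | hlt
        · exact (hy.2.1 z hz1 hlt hz2).elim
        · exact (t1 hz3).elim
        · exact ⟨z, by omega, hz2, hz3⟩

theorem FG.complete {K u : ℕ}
    (hK : ∀ F : Finset ℕ, (∀ y ∈ F, u ≤ y ∧ Y y) → F.card ≤ K) :
    ∃ b, ∃ k, k ≤ K ∧ FG Y T k b u := by
  classical
  induction K generalizing u with
  | zero =>
    refine ⟨false, 0, le_rfl, rfl, fun z hz hY => ?_⟩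
    have := hK {z} (by
      intro y hy
      rw [Finset.mem_singleton] at hy
      subst hy
      exact ⟨hz, hY⟩)
    simp at this
  | succ K ih =>
    by_cases hex : ∃ z, u ≤ z ∧ Y z
    · have hfind := Nat.find_spec hex
      set y := Nat.find hex with hy
      have hmin : ∀ z, u ≤ z → z < y → ¬ Y z := fun z h1 h2 h3 => Nat.find_min hex h2 ⟨h1, h3⟩
      obtain ⟨b, k, hk, hFG⟩ := ih (u := y + 1) (by
        intro F hF
        have hyF : y ∉ F := by
          intro h
          have := (hF y h).1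
          omega
        have h1 := hK (insert y F) (by
          intro z hz
          rcases Finset.mem_insert.mp hz with rfl | hz
          · exact ⟨hfind.1, hfind.2⟩
          · exact ⟨by have := (hF z hz).1; omega, (hF z hz).2⟩)
        rw [Finset.card_insert_of_notMem hyF] at h1
        omega)
      by_cases hT : T y
      · refine ⟨true, k + 1, by omega, y, ⟨hfind.1, hmin, hfind.2⟩, Or.inl ⟨hT, rfl, ?_⟩⟩
        cases b
        · exact Or.inr hFG
        · exact Or.inl hFG
      · exact ⟨b, k + 1, by omega, y, ⟨hfind.1, hmin, hfind.2⟩, Or.inr ⟨hT, hFG⟩⟩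
    · push Not at hex
      exact ⟨false, 0, Nat.zero_le _, rfl, hex⟩

end fg

theorem sf_FG {σ : Type} {Y : (σ → ℕ) → ℕ → Prop} (hY : Gap Y) {T : (Option σ → ℕ) → Prop}
    (hT : Good T) (k : ℕ) : ∀ (b : Bool) (τ : Type) (h : (τ → ℕ) → σ → ℕ),
    (∀ i, PolyFn (fun x => (h x i : ℤ))) → ∀ (u : (τ → ℕ) → ℕ), PolyFn (fun x => (u x : ℤ)) →
    SF (fun x => FG (Y (h x)) (fun y => T (ocons y (h x))) k b (u x)) := by
  induction k with
  | zero =>
    intro b τ h hh u hu
    cases b
    · exact (hY.inf τ h hh u hu).congr (fun x => ⟨fun H => H.2, fun H => ⟨rfl, H⟩⟩)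
    · exact SF.false.congr (fun x => ⟨fun H => absurd H.1 (by decide), fun H => H.elim⟩)
  | succ k ih =>
    intro b τ h hh u hu
    have hn : PolyFn (fun z : Option τ → ℕ => ((z none : ℕ) : ℤ)) := PolyFn.coord none
    have hn1 : PolyFn (fun z : Option τ → ℕ => ((z none + 1 : ℕ) : ℤ)) := by
      have := hn.add (PolyFn.const 1)
      have e : (fun z : Option τ → ℕ => ((z none + 1 : ℕ) : ℤ))
          = fun z => ((z none : ℕ) : ℤ) + 1 := by
        funext z
        push_cast
        rfl
      rw [e]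
      exact this
    have hh' : ∀ i, PolyFn (fun z : Option τ → ℕ => ((h (tl z) i : ℕ) : ℤ)) :=
      fun i => (hh i).tl
    have hT' : Good (fun z : Option τ → ℕ => T (ocons (z none) (h (tl z)))) := by
      apply hT.subst
      rintro (_ | i)
      · exact hn
      · exact hh' i
    have hp : SF (fun z : Option τ → ℕ =>
        (u (tl z) ≤ z none ∧ (∀ y, u (tl z) ≤ y → y < z none → ¬ Y (h (tl z)) y) ∧
          Y (h (tl z)) (z none)) ∧
        ((T (ocons (z none) (h (tl z))) ∧ b = true ∧
          (FG (Y (h (tl z))) (fun y => T (ocons y (h (tl z)))) k true (z none + 1) ∨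
            FG (Y (h (tl z))) (fun y => T (ocons y (h (tl z)))) k false (z none + 1))) ∨
        (¬ T (ocons (z none) (h (tl z))) ∧
          FG (Y (h (tl z))) (fun y => T (ocons y (h (tl z)))) k b (z none + 1)))) := by
      apply SF.and
      · apply (SF.le hu.tl hn).and
        apply (hY.bdd (Option τ) (fun z => h (tl z)) hh' (fun z => u (tl z)) (fun z => z none)
          hu.tl hn).and
        exact hY.mem (Option τ) (fun z => h (tl z)) hh' (fun z => z none) hn
      · apply SF.or
        · apply hT'.1.and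
          cases b
          · exact SF.false.congr (fun x => ⟨fun H => absurd H.1 (by decide), fun H => H.elim⟩)
          · have h1 := ih true (Option τ) (fun z => h (tl z)) hh' (fun z => z none + 1) hn1
            have h2 := ih false (Option τ) (fun z => h (tl z)) hh' (fun z => z none + 1) hn1
            refine (h1.or h2 ?_).congr (fun z => ⟨fun H => H.2, fun H => ⟨rfl, H⟩⟩)
            intro z a1 a2
            have := (a1.disjoint a2).2
            exact absurd this (by decide)
        · exact hT'.2.and (ih b (Option τ) (fun z => h (tl z)) hh' (fun z => z none + 1) hn1)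
        · rintro z ⟨a1, _⟩ ⟨a2, _⟩
          exact a2 a1
    refine (hp.exu ?_).congr (fun x => Iff.rfl)
    rintro x t t' ⟨h1, _⟩ ⟨h2, _⟩
    exact first_unique h1 h2

/-- Quantification over the points of a uniformly finite family with single-fold gaps. -/
theorem Good.quant {σ : Type} {Y : (σ → ℕ) → ℕ → Prop} (hY : Gap Y)
    {T : (Option σ → ℕ) → Prop} (hT : Good T) {G : (σ → ℕ) → Prop} (hG : Good G) (K : ℕ)
    (hK : ∀ x, G x → ∀ F : Finset ℕ, (∀ y ∈ F, Y x y) → F.card ≤ K) :
    Good (fun x => G x ∧ ∃ y, Y x y ∧ T (ocons y x)) := by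
  have hid : ∀ i, PolyFn (fun x : σ → ℕ => ((x i : ℕ) : ℤ)) := fun i => PolyFn.coord i
  have h0 : PolyFn (fun _ : σ → ℕ => ((0 : ℕ) : ℤ)) := PolyFn.const 0
  have hSF : ∀ b, SF (fun x : σ → ℕ =>
      ∃ k, k ≤ K ∧ FG (Y x) (fun y => T (ocons y x)) k b 0) := by
    intro b
    apply SF.exists_le
    · intro k
      exact sf_FG hY hT k b σ (fun x => x) hid (fun _ => 0) h0
    · intro k k' x h1 h2
      exact (h1.disjoint h2).1
  have key : ∀ x, G x → ∀ b, (∃ k, k ≤ K ∧ FG (Y x) (fun y => T (ocons y x)) k b 0) ↔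
      (b = true ↔ ∃ y, Y x y ∧ T (ocons y x)) := by
    intro x hGx b
    constructor
    · rintro ⟨k, _, hk⟩
      rw [hk.sound]
      simp
    · intro hb
      obtain ⟨b', k, hk1, hk2⟩ := FG.complete (Y := Y x) (T := fun y => T (ocons y x)) (K := K)
        (u := 0) (fun F hF => hK x hGx F (fun y hy => (hF y hy).2))
      have hs := hk2.sound
      simp only [Nat.zero_le, true_and] at hs
      have : b = b' := by
        have h1 : b = true ↔ b' = true := hb.trans hs.symm
        cases b <;> cases b' <;> simp_all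
      rw [this]
      exact ⟨k, hk1, hk2⟩
  constructor
  · refine (hG.1.and (hSF true)).congr (fun x => ?_)
    constructor
    · rintro ⟨h1, h2⟩
      exact ⟨h1, (key x h1 true).mpr (by simpa using h2)⟩
    · rintro ⟨h1, h2⟩
      exact ⟨h1, by simpa using (key x h1 true).mp h2⟩
  · refine (hG.2.or (hG.1.and (hSF false)) ?_).congr (fun x => ?_)
    · rintro x h1 ⟨h2, _⟩
      exact h1 h2
    · constructor
      · intro h
        by_cases h1 : G x
        · refine Or.inr ⟨h1, (key x h1 false).mpr ?_⟩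
          constructor
          · intro h2
            exact absurd h2 (by decide)
          · intro h2
            exact (h ⟨h1, h2⟩).elim
        · exact Or.inl h1
      · rintro (h1 | ⟨h1, h2⟩) ⟨h3, h4⟩
        · exact h1 h3
        · have := (key x h1 false).mp h2
          have := this.mpr h4
          exact absurd this (by decide)

end Vale.Agent.P345h27
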