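import Vale.Agent.Lib.P345h27.Signs

/-! # Bounded and unbounded sign conditions are single-fold -/

namespace Vale.Agent.P345h27

/-- `t` is the first index after `u` at which the sign of `h` differs from the sign at `u`. -/
def Fst (h : ℕ → ℤ) (u t : ℕ) : Prop :=
  u < t ∧ (((∀ y, u ≤ y → y < t → 0 ≤ h y) ∧ h t < 0) ∨
    ((∀ y, u ≤ y → y < t → h y < 0) ∧ 0 ≤ h t))

theorem Fst.unique {h : ℕ → ℤ} {u t t' : ℕ} (h1 : Fst h u t) (h2 : Fst h u t') : t = t' := by
  obtain ⟨a1, a2⟩ := h1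
  obtain ⟨b1, b2⟩ := h2
  rcases lt_trichotomy t t' with hlt | heq | hlt
  · exfalso
    rcases a2 with ⟨a2, a3⟩ | ⟨a2, a3⟩ <;> rcases b2 with ⟨b2, b3⟩ | ⟨b2, b3⟩
    · have := b2 t a1.le hlt
      omega
    · have := a2 u le_rfl a1
      have := b2 u le_rfl b1
      omega
    · have := a2 u le_rfl a1
      have := b2 u le_rfl b1
      omega
    · have := b2 t a1.le hlt
      omega
  · exact heq
  · exfalso
    rcases a2 with ⟨a2, a3⟩ | ⟨a2, a3⟩ <;> rcases b2 with ⟨b2, b3⟩ | ⟨b2, b3⟩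
    · have := a2 t' b1.le hlt
      omega
    · have := a2 u le_rfl a1
      have := b2 u le_rfl b1
      omega
    · have := a2 u le_rfl a1
      have := b2 u le_rfl b1
      omega
    · have := a2 t' b1.le hlt
      omega

theorem cnt_zero_of_nonneg {h : ℕ → ℤ} {u n : ℕ} (H : ∀ y, u ≤ y → y ≤ u + n → 0 ≤ h y) :
    cnt h u n = 0 := by
  induction n with
  | zero => rfl
  | succ n ih =>
    have h1 := H (u + n) (by omega) (by omega)
    have h2 := H (u + n + 1) (by omega) (by omega)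
    rw [cnt, ih (fun y h1 h2 => H y h1 (by omega)), if_pos]
    exact ⟨fun _ => h2, fun _ => h1⟩

theorem cnt_zero_of_neg {h : ℕ → ℤ} {u n : ℕ} (H : ∀ y, u ≤ y → y ≤ u + n → h y < 0) :
    cnt h u n = 0 := by
  induction n with
  | zero => rfl
  | succ n ih =>
    have h1 := H (u + n) (by omega) (by omega)
    have h2 := H (u + n + 1) (by omega) (by omega)
    rw [cnt, ih (fun y h1 h2 => H y h1 (by omega)), if_pos]
    constructor <;> intro <;> omega

theorem Fst.cnt_eq {h : ℕ → ℤ} {u t : ℕ} (H : Fst h u t) (n : ℕ) :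
    cnt h u ((t - u) + n) = 1 + cnt h t n := by
  obtain ⟨a1, a2⟩ := H
  have e1 : cnt h u (t - u) = 1 := by
    obtain ⟨m, rfl⟩ : ∃ m, t = u + m + 1 := ⟨t - u - 1, by omega⟩
    have e : u + m + 1 - u = m + 1 := by omega
    rw [e, cnt]
    rcases a2 with ⟨a2, a3⟩ | ⟨a2, a3⟩
    · rw [cnt_zero_of_nonneg (fun y h1 h2 => a2 y h1 (by omega)), if_neg]
      intro hh
      have := a2 (u + m) (by omega) (by omega)
      have := hh.mp this
      omega
    · rw [cnt_zero_of_neg (fun y h1 h2 => a2 y h1 (by omega)), if_neg]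
      intro hh
      have := a2 (u + m) (by omega) (by omega)
      have := hh.mpr a3
      omega
  rw [cnt_add, e1]
  have e2 : u + (t - u) = t := by omega
  rw [e2]

theorem exists_fst {h : ℕ → ℤ} {u w : ℕ} (h1 : ¬ ∀ y, u ≤ y → y < w → 0 ≤ h y)
    (h2 : ¬ ∀ y, u ≤ y → y < w → h y < 0) : ∃ t, t < w ∧ Fst h u t := by
  classical
  push Not at h1 h2
  by_cases hu : 0 ≤ h u
  · have hex : ∃ y, u ≤ y ∧ y < w ∧ h y < 0 := h1
    refine ⟨Nat.find hex, (Nat.find_spec hex).2.1, ?_, Or.inl ⟨?_, (Nat.find_spec hex).2.2⟩⟩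
    · rcases Nat.lt_or_ge u (Nat.find hex) with hlt | hge
      · exact hlt
      · exfalso
        have h3 := Nat.find_spec hex
        have h4 : Nat.find hex = u := le_antisymm hge h3.1
        rw [h4] at h3
        omega
    · intro y hy1 hy2
      have h3 := Nat.find_spec hex
      by_contra hcon
      exact Nat.find_min hex hy2 ⟨hy1, by omega, by omega⟩
  · have hex : ∃ y, u ≤ y ∧ y < w ∧ 0 ≤ h y := h2
    refine ⟨Nat.find hex, (Nat.find_spec hex).2.1, ?_, Or.inr ⟨?_, (Nat.find_spec hex).2.2⟩⟩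
    · rcases Nat.lt_or_ge u (Nat.find hex) with hlt | hge
      · exact hlt
      · exfalso
        have h3 := Nat.find_spec hex
        have h4 : Nat.find hex = u := le_antisymm hge h3.1
        rw [h4] at h3
        exact hu h3.2.2
    · intro y hy1 hy2
      have h3 := Nat.find_spec hex
      by_contra hcon
      exact Nat.find_min hex hy2 ⟨hy1, by omega, by omega⟩

theorem mono_up {g h : ℕ → ℤ} (hh : ∀ y, h y = g (y + 1) - g y) {u w : ℕ}
    (H : ∀ y, u ≤ y → y < w → 0 ≤ h y) {a b : ℕ} (hua : u ≤ a) (hab : a ≤ b) (hbw : b ≤ w) :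
    g a ≤ g b := by
  induction b, hab using Nat.le_induction with
  | base => exact le_refl _
  | succ n hn ih =>
    have h1 := H n (by omega) (by omega)
    rw [hh] at h1
    have h2 := ih (by omega)
    omega

theorem mono_down {g h : ℕ → ℤ} (hh : ∀ y, h y = g (y + 1) - g y) {u w : ℕ}
    (H : ∀ y, u ≤ y → y < w → h y < 0) {a b : ℕ} (hua : u ≤ a) (hab : a ≤ b) (hbw : b ≤ w) :
    g b ≤ g a := by
  induction b, hab using Nat.le_induction with
  | base => exact le_refl _
  | succ n hn ih =>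
    have h1 := H n (by omega) (by omega)
    rw [hh] at h1
    have h2 := ih (by omega)
    omega

/-- `g` is nonnegative on `[u, w]` and `h` changes sign exactly `k` times on `[u, w)`. -/
def D (g h : ℕ → ℤ) : ℕ → ℕ → ℕ → Prop
  | 0, u, w => u ≤ w ∧ 0 ≤ g u ∧ 0 ≤ g w ∧
      ((∀ y, u ≤ y → y < w → 0 ≤ h y) ∨ (u < w ∧ ∀ y, u ≤ y → y < w → h y < 0))
  | k + 1, u, w => ∃ t, Fst h u t ∧ t < w ∧ 0 ≤ g u ∧ D g h k t w

theorem D.sound {g h : ℕ → ℤ} (hh : ∀ y, h y = g (y + 1) - g y) {k u w : ℕ} (H : D g h k u w) :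
    u ≤ w ∧ ∀ y, u ≤ y → y ≤ w → 0 ≤ g y := by
  induction k generalizing u with
  | zero =>
    obtain ⟨h1, h2, h3, h4⟩ := H
    refine ⟨h1, fun y hy1 hy2 => ?_⟩
    rcases h4 with h4 | ⟨_, h4⟩
    · exact h2.trans (mono_up hh h4 le_rfl hy1 hy2)
    · exact h3.trans (mono_down hh h4 hy1 hy2 le_rfl)
  | succ k ih =>
    obtain ⟨t, h1, h2, h3, h4⟩ := H
    obtain ⟨i1, i2⟩ := ih h4
    have h5 := i2 t le_rfl h2.le
    refine ⟨h1.1.le.trans h2.le, fun y hy1 hy2 => ?_⟩
    rcases Nat.lt_or_ge y t with hlt | hge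
    · rcases h1.2 with ⟨h6, _⟩ | ⟨h6, _⟩
      · exact h3.trans (mono_up hh h6 le_rfl hy1 hlt.le)
      · exact h5.trans (mono_down hh h6 hy1 hlt.le le_rfl)
    · exact i2 y hge hy2

theorem D.disjoint {g h : ℕ → ℤ} {k k' u w : ℕ} (H : D g h k u w) (H' : D g h k' u w) :
    k = k' := by
  have aux : ∀ t, t < w → Fst h u t → ¬ ((∀ y, u ≤ y → y < w → 0 ≤ h y) ∨
      (u < w ∧ ∀ y, u ≤ y → y < w → h y < 0)) := by
    rintro t ht ⟨h1, h2⟩ (h3 | ⟨_, h3⟩)
    · rcases h2 with ⟨_, h4⟩ | ⟨h4, _⟩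
      · have := h3 t h1.le ht
        omega
      · have := h3 u le_rfl (by omega)
        have := h4 u le_rfl h1
        omega
    · rcases h2 with ⟨h4, _⟩ | ⟨_, h4⟩
      · have := h3 u le_rfl (by omega)
        have := h4 u le_rfl h1
        omega
      · have := h3 t h1.le ht
        omega
  induction k generalizing u k' with
  | zero =>
    cases k' with
    | zero => rfl
    | succ k' =>
      obtain ⟨t, h1, h2, _, _⟩ := H'
      exact (aux t h2 h1 H.2.2.2).elim
  | succ k ih =>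
    obtain ⟨t, h1, h2, h3, h4⟩ := H
    cases k' with
    | zero => exact (aux t h2 h1 H'.2.2.2).elim
    | succ k' =>
      obtain ⟨t', i1, i2, i3, i4⟩ := H'
      have e := h1.unique i1
      subst e
      have aux' : ∀ s, s < w → Fst h t s → ¬ ((∀ y, t ≤ y → y < w → 0 ≤ h y) ∨
          (t < w ∧ ∀ y, t ≤ y → y < w → h y < 0)) := by
        rintro s hs ⟨h1, h2⟩ (h3 | ⟨_, h3⟩)
        · rcases h2 with ⟨_, h4⟩ | ⟨h4, _⟩
          · have := h3 s h1.le hs
            omega
          · have := h3 t le_rfl (by omega)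
            have := h4 t le_rfl h1
            omega
        · rcases h2 with ⟨h4, _⟩ | ⟨_, h4⟩
          · have := h3 t le_rfl (by omega)
            have := h4 t le_rfl h1
            omega
          · have := h3 s h1.le hs
            omega
      rw [ih h4 i4 aux']

theorem D.complete {g h : ℕ → ℤ} {b u w : ℕ} (huw : u ≤ w)
    (hg : ∀ y, u ≤ y → y ≤ w → 0 ≤ g y) (hb : ∀ n, cnt h u n ≤ b) :
    ∃ k, k ≤ b ∧ D g h k u w := by
  induction b generalizing u with
  | zero =>
    refine ⟨0, le_rfl, huw, hg u le_rfl huw, hg w huw le_rfl, ?_⟩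
    by_contra hcon
    push Not at hcon
    obtain ⟨⟨y, hy1, hy2, hy3⟩, hc2⟩ := hcon
    obtain ⟨z, hz1, hz2, hz3⟩ := hc2 (by omega)
    obtain ⟨t, ht1, ht2⟩ := exists_fst (h := h) (u := u) (w := w)
      (fun hc => by have := hc y hy1 hy2; omega) (fun hc => by have := hc z hz1 hz2; omega)
    have h1 := ht2.cnt_eq 0
    have h2 := hb ((t - u) + 0)
    omega
  | succ b ih =>
    by_cases hc : (∀ y, u ≤ y → y < w → 0 ≤ h y) ∨ (u < w ∧ ∀ y, u ≤ y → y < w → h y < 0)
    · exact ⟨0, Nat.zero_le _, huw, hg u le_rfl huw, hg w huw le_rfl, hc⟩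
    · push Not at hc
      obtain ⟨⟨y, hy1, hy2, hy3⟩, hc2⟩ := hc
      obtain ⟨z, hz1, hz2, hz3⟩ := hc2 (by omega)
      obtain ⟨t, ht1, ht2⟩ := exists_fst (h := h) (u := u) (w := w)
        (fun hc => by have := hc y hy1 hy2; omega) (fun hc => by have := hc z hz1 hz2; omega)
      obtain ⟨k, hk1, hk2⟩ := ih (u := t) ht1.le (fun y h1 h2 => hg y (ht2.1.le.trans h1) h2)
        (fun n => by
          have h1 := ht2.cnt_eq n
          have h2 := hb ((t - u) + n)
          omega)
      exact ⟨k + 1, by omega, t, ht2, ht1, hg u le_rfl huw, hk2⟩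

/-- `g` is nonnegative on `[u, ∞)` and `h` changes sign exactly `k` times on `[u, ∞)`. -/
def Di (g h : ℕ → ℤ) : ℕ → ℕ → Prop
  | 0, u => 0 ≤ g u ∧ ∀ y, u ≤ y → 0 ≤ h y
  | k + 1, u => ∃ t, Fst h u t ∧ 0 ≤ g u ∧ Di g h k t

theorem Di.sound {g h : ℕ → ℤ} (hh : ∀ y, h y = g (y + 1) - g y) {k u : ℕ} (H : Di g h k u) :
    ∀ y, u ≤ y → 0 ≤ g y := by
  induction k generalizing u with
  | zero =>
    obtain ⟨h1, h2⟩ := H
    intro y hy
    exact h1.trans (mono_up (w := y) hh (fun z hz _ => h2 z hz) le_rfl hy le_rfl)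
  | succ k ih =>
    obtain ⟨t, h1, h3, h4⟩ := H
    have i2 := ih h4
    have h5 := i2 t le_rfl
    intro y hy1
    rcases Nat.lt_or_ge y t with hlt | hge
    · rcases h1.2 with ⟨h6, _⟩ | ⟨h6, _⟩
      · exact h3.trans (mono_up hh h6 le_rfl hy1 hlt.le)
      · exact h5.trans (mono_down hh h6 hy1 hlt.le le_rfl)
    · exact i2 y hge

theorem Di.disjoint {g h : ℕ → ℤ} {k k' u : ℕ} (H : Di g h k u) (H' : Di g h k' u) :
    k = k' := by
  have aux : ∀ u t, Fst h u t → ¬ (∀ y, u ≤ y → 0 ≤ h y) := by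
    rintro u t ⟨h1, h2⟩ h3
    rcases h2 with ⟨_, h4⟩ | ⟨h4, _⟩
    · have := h3 t h1.le
      omega
    · have := h3 u le_rfl
      have := h4 u le_rfl h1
      omega
  induction k generalizing u k' with
  | zero =>
    cases k' with
    | zero => rfl
    | succ k' =>
      obtain ⟨t, h1, _⟩ := H'
      exact (aux u t h1 H.2).elim
  | succ k ih =>
    obtain ⟨t, h1, h3, h4⟩ := H
    cases k' with
    | zero => exact (aux u t h1 H'.2).elim
    | succ k' =>
      obtain ⟨t', i1, i3, i4⟩ := H'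
      have e := h1.unique i1
      subst e
      rw [ih h4 i4]

theorem eventually_neg {g h : ℕ → ℤ} (hh : ∀ y, h y = g (y + 1) - g y) {u : ℕ}
    (H : ∀ y, u ≤ y → h y < 0) : ∃ y, u ≤ y ∧ g y < 0 := by
  have h1 : ∀ n : ℕ, g (u + n) ≤ g u - n := by
    intro n
    induction n with
    | zero => simp
    | succ n ih =>
      have h2 := H (u + n) (by omega)
      rw [hh] at h2
      have e : u + (n + 1) = u + n + 1 := rfl
      rw [e]
      push_cast
      omega
  refine ⟨u + ((g u).toNat + 1), by omega, ?_⟩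
  have h2 := h1 ((g u).toNat + 1)
  have h3 := Int.self_le_toNat (g u)
  push_cast at h2
  omega

theorem Di.complete {g h : ℕ → ℤ} (hh : ∀ y, h y = g (y + 1) - g y) {b u : ℕ}
    (hg : ∀ y, u ≤ y → 0 ≤ g y) (hb : ∀ n, cnt h u n ≤ b) : ∃ k, k ≤ b ∧ Di g h k u := by
  induction b generalizing u with
  | zero =>
    refine ⟨0, le_rfl, hg u le_rfl, ?_⟩
    by_contra hcon
    push Not at hcon
    obtain ⟨y, hy1, hy3⟩ := hcon
    have hz : ∃ z, u ≤ z ∧ 0 ≤ h z := by
      by_contra hc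
      push Not at hc
      obtain ⟨y, h1, h2⟩ := eventually_neg hh hc
      have := hg y h1
      omega
    obtain ⟨z, hz1, hz3⟩ := hz
    obtain ⟨t, ht1, ht2⟩ := exists_fst (h := h) (u := u) (w := y + z + 1)
      (fun hc => by have := hc y hy1 (by omega); omega)
      (fun hc => by have := hc z hz1 (by omega); omega)
    have h1 := ht2.cnt_eq 0
    have h2 := hb ((t - u) + 0)
    omega
  | succ b ih =>
    by_cases hc : ∀ y, u ≤ y → 0 ≤ h y
    · exact ⟨0, Nat.zero_le _, hg u le_rfl, hc⟩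
    · push Not at hc
      obtain ⟨y, hy1, hy3⟩ := hc
      have hz : ∃ z, u ≤ z ∧ 0 ≤ h z := by
        by_contra hc
        push Not at hc
        obtain ⟨y, h1, h2⟩ := eventually_neg hh hc
        have := hg y h1
        omega
      obtain ⟨z, hz1, hz3⟩ := hz
      obtain ⟨t, ht1, ht2⟩ := exists_fst (h := h) (u := u) (w := y + z + 1)
        (fun hc => by have := hc y hy1 (by omega); omega)
        (fun hc => by have := hc z hz1 (by omega); omega)
      obtain ⟨k, hk1, hk2⟩ := ih (u := t) (fun y h1 => hg y (ht2.1.le.trans h1))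
        (fun n => by
          have h1 := ht2.cnt_eq n
          have h2 := hb ((t - u) + n)
          omega)
      exact ⟨k + 1, by omega, t, ht2, hg u le_rfl, hk2⟩

/-! ## Single-foldness -/

/-- Forget the new entry. -/
def tl {τ : Type} (z : Option τ → ℕ) : τ → ℕ := fun i => z (some i)

theorem tl_poly {τ : Type} (i : τ) : PolyFn (fun z : Option τ → ℕ => ((tl z i : ℕ) : ℤ)) :=
  PolyFn.coord (some i)

theorem PolyFn.tl {τ : Type} {f : (τ → ℕ) → ℤ} (hf : PolyFn f) :
    PolyFn (fun z : Option τ → ℕ => f (tl z)) :=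
  hf.subst (h := Vale.Agent.P345h27.tl) tl_poly

theorem SF.lt {τ : Type} {u w : (τ → ℕ) → ℕ} (hu : PolyFn (fun x => (u x : ℤ)))
    (hw : PolyFn (fun x => (w x : ℤ))) : SF (fun x => u x < w x) :=
  (SF.nonneg ((hw.sub hu).sub (PolyFn.const 1))).congr (fun x => by constructor <;> intro <;> omega)

theorem SF.le {τ : Type} {u w : (τ → ℕ) → ℕ} (hu : PolyFn (fun x => (u x : ℤ)))
    (hw : PolyFn (fun x => (w x : ℤ))) : SF (fun x => u x ≤ w x) :=
  (SF.nonneg (hw.sub hu)).congr (fun x => by constructor <;> intro <;> omega)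

/-- The statement for degree `d` (bounded intervals). -/
def StA (d : ℕ) : Prop := ∀ (τ : Type) (g : (τ → ℕ) → ℕ → ℤ), DF d g →
  ∀ (u w : (τ → ℕ) → ℕ), PolyFn (fun x => (u x : ℤ)) → PolyFn (fun x => (w x : ℤ)) →
    SF (fun x => ∀ y, u x ≤ y → y < w x → 0 ≤ g x y)

theorem DF.negsub {τ : Type} {d : ℕ} {g : (τ → ℕ) → ℕ → ℤ} (hg : DF d g) :
    DF d (fun x y => -1 * g x y + -1) :=
  (DF.smul (PolyFn.const (-1)) hg).add (DF.const (PolyFn.const (-1)))

theorem sf_neg {d : ℕ} (H : StA d) {τ : Type} {g : (τ → ℕ) → ℕ → ℤ} (hg : DF d g)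
    {u w : (τ → ℕ) → ℕ} (hu : PolyFn (fun x => (u x : ℤ))) (hw : PolyFn (fun x => (w x : ℤ))) :
    SF (fun x => ∀ y, u x ≤ y → y < w x → g x y < 0) := by
  refine (H τ _ hg.negsub u w hu hw).congr (fun x => ?_)
  constructor
  · intro h y h1 h2
    have := h y h1 h2
    omega
  · intro h y h1 h2
    have := h y h1 h2
    omega

theorem sf_fst {d : ℕ} (H : StA d) {τ : Type} {g : (τ → ℕ) → ℕ → ℤ} (hg : DF d g)
    {u t : (τ → ℕ) → ℕ} (hu : PolyFn (fun x => (u x : ℤ))) (ht : PolyFn (fun x => (t x : ℤ))) :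
    SF (fun x => Fst (g x) (u x) (t x)) := by
  apply (SF.lt hu ht).and
  apply SF.or
  · exact (H τ g hg u t hu ht).and (SF.neg_lt (hg.eval ht))
  · exact (sf_neg H hg hu ht).and (SF.nonneg (hg.eval ht))
  · rintro x ⟨_, h1⟩ ⟨_, h2⟩
    omega

theorem sf_D {d : ℕ} (H : StA d) (k : ℕ) : ∀ (τ : Type) (g : (τ → ℕ) → ℕ → ℤ), DF (d + 1) g →
    ∀ (u w : (τ → ℕ) → ℕ), PolyFn (fun x => (u x : ℤ)) → PolyFn (fun x => (w x : ℤ)) →
    SF (fun x => D (g x) (diff g x) k (u x) (w x)) := by
  induction k with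
  | zero =>
    intro τ g hg u w hu hw
    apply (SF.le hu hw).and
    apply (SF.nonneg (hg.eval hu)).and
    apply (SF.nonneg (hg.eval hw)).and
    apply SF.or
    · exact H τ (diff g) hg.2 u w hu hw
    · exact (SF.lt hu hw).and (sf_neg H hg.2 hu hw)
    · rintro x h1 ⟨h2, h3⟩
      have := h1 (u x) le_rfl h2
      have := h3 (u x) le_rfl h2
      omega
  | succ k ih =>
    intro τ g hg u w hu hw
    have hp : SF (fun z : Option τ → ℕ => Fst (diff g (tl z)) (u (tl z)) (z none) ∧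
        z none < w (tl z) ∧ 0 ≤ g (tl z) (u (tl z)) ∧
        D (g (tl z)) (diff g (tl z)) k (z none) (w (tl z))) := by
      have hg' : DF (d + 1) (fun (z : Option τ → ℕ) y => g (tl z) y) := hg.pull tl_poly
      have hn : PolyFn (fun z : Option τ → ℕ => ((z none : ℕ) : ℤ)) := PolyFn.coord none
      apply (sf_fst H (hg.2.pull tl_poly) hu.tl hn).and
      apply (SF.lt hn hw.tl).and
      apply (SF.nonneg (hg'.eval hu.tl)).and
      exact ih (Option τ) _ hg' (fun z => z none) (fun z => w (tl z)) hn hw.tl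
    refine (hp.exu ?_).congr (fun x => ?_)
    · rintro x t t' ⟨h1, _⟩ ⟨h2, _⟩
      exact h1.unique h2
    · exact Iff.rfl

theorem sf_A (d : ℕ) : StA d := by
  induction d with
  | zero =>
    intro τ g hg u w hu hw
    have hc : ∀ x y, g x y = g x (u x) := by
      have h0 : ∀ x y, g x y = g x 0 := by
        intro x y
        induction y with
        | zero => rfl
        | succ y ih => rw [hg.2, ih]
      intro x y
      rw [h0 x y, h0 x (u x)]
    refine ((SF.le hw hu).or ((SF.lt hu hw).and (SF.nonneg (hg.eval hu))) ?_).congr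
      (fun x => ?_)
    · rintro x h1 ⟨h2, _⟩
      omega
    · constructor
      · intro h
        by_cases hx : w x ≤ u x
        · exact Or.inl hx
        · exact Or.inr ⟨by omega, h (u x) le_rfl (by omega)⟩
      · rintro (h | ⟨_, h⟩) y h1 h2
        · omega
        · rw [hc]
          exact h
  | succ d ih =>
    intro τ g hg u w hu hw
    have hp : SF (fun z : Option τ → ℕ => ((z none : ℕ) : ℤ) + 1 - (w (tl z) : ℤ) = 0 ∧
        ∃ k, k ≤ d ∧ D (g (tl z)) (diff g (tl z)) k (u (tl z)) (z none)) := by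
      have hg' : DF (d + 1) (fun (z : Option τ → ℕ) y => g (tl z) y) := hg.pull tl_poly
      have hn : PolyFn (fun z : Option τ → ℕ => ((z none : ℕ) : ℤ)) := PolyFn.coord none
      apply (SF.eq_zero ((hn.add (PolyFn.const 1)).sub hw.tl)).and
      apply SF.exists_le
      · intro k
        exact sf_D ih k (Option τ) _ hg' (fun z => u (tl z)) (fun z => z none) hu.tl hn
      · intro k k' z h1 h2
        exact h1.disjoint h2
    have hp2 := hp.exu (by
      rintro x t t' ⟨h1, _⟩ ⟨h2, _⟩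
      have h1' : ((t : ℕ) : ℤ) + 1 - (w x : ℤ) = 0 := h1
      have h2' : ((t' : ℕ) : ℤ) + 1 - (w x : ℤ) = 0 := h2
      omega)
    refine ((SF.le hw hu).or ((SF.lt hu hw).and hp2) ?_).congr (fun x => ?_)
    · rintro x h1 ⟨h2, _⟩
      omega
    · constructor
      · intro h
        by_cases hx : w x ≤ u x
        · exact Or.inl hx
        · refine Or.inr ⟨by omega, w x - 1, ?_, ?_⟩
          · show (((w x - 1 : ℕ) : ℕ) : ℤ) + 1 - (w x : ℤ) = 0
            omega
          · have hle : u x ≤ w x - 1 := by omega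
            exact D.complete (w := w x - 1) hle (fun y h1 h2 => h y h1 (by
              have h3 : y ≤ w x - 1 := h2
              omega)) (fun n => cnt_le d hg.2 x (u x) n)
      · rintro (h | ⟨_, t, h1, k, _, h3⟩) y hy1 hy2
        · omega
        · have h1' : ((t : ℕ) : ℤ) + 1 - (w x : ℤ) = 0 := h1
          have h3' : D (g x) (diff g x) k (u x) t := h3
          exact (D.sound (fun y => rfl) h3').2 y hy1 (by omega)

theorem sf_Di {d : ℕ} (H : ∀ (τ : Type) (g : (τ → ℕ) → ℕ → ℤ), DF d g →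
    ∀ (u : (τ → ℕ) → ℕ), PolyFn (fun x => (u x : ℤ)) → SF (fun x => ∀ y, u x ≤ y → 0 ≤ g x y))
    (k : ℕ) : ∀ (τ : Type) (g : (τ → ℕ) → ℕ → ℤ), DF (d + 1) g →
    ∀ (u : (τ → ℕ) → ℕ), PolyFn (fun x => (u x : ℤ)) →
    SF (fun x => Di (g x) (diff g x) k (u x)) := by
  induction k with
  | zero =>
    intro τ g hg u hu
    exact (SF.nonneg (hg.eval hu)).and (H τ (diff g) hg.2 u hu)
  | succ k ih =>
    intro τ g hg u hu
    have hp : SF (fun z : Option τ → ℕ => Fst (diff g (tl z)) (u (tl z)) (z none) ∧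
        0 ≤ g (tl z) (u (tl z)) ∧ Di (g (tl z)) (diff g (tl z)) k (z none)) := by
      have hg' : DF (d + 1) (fun (z : Option τ → ℕ) y => g (tl z) y) := hg.pull tl_poly
      have hn : PolyFn (fun z : Option τ → ℕ => ((z none : ℕ) : ℤ)) := PolyFn.coord none
      apply (sf_fst (sf_A d) (hg.2.pull tl_poly) hu.tl hn).and
      apply (SF.nonneg (hg'.eval hu.tl)).and
      exact ih (Option τ) _ hg' (fun z => z none) hn
    refine (hp.exu ?_).congr (fun x => ?_)
    · rintro x t t' ⟨h1, _⟩ ⟨h2, _⟩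
      exact h1.unique h2
    · exact Iff.rfl

/-- Unbounded universal sign conditions. -/
theorem sf_Ai (d : ℕ) : ∀ (τ : Type) (g : (τ → ℕ) → ℕ → ℤ), DF d g →
    ∀ (u : (τ → ℕ) → ℕ), PolyFn (fun x => (u x : ℤ)) →
      SF (fun x => ∀ y, u x ≤ y → 0 ≤ g x y) := by
  induction d with
  | zero =>
    intro τ g hg u hu
    have hc : ∀ x y, g x y = g x (u x) := by
      have h0 : ∀ x y, g x y = g x 0 := by
        intro x y
        induction y with
        | zero => rfl
        | succ y ih => rw [hg.2, ih]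
      intro x y
      rw [h0 x y, h0 x (u x)]
    refine (SF.nonneg (hg.eval hu)).congr (fun x => ?_)
    constructor
    · intro h
      exact h (u x) le_rfl
    · intro h y _
      rw [hc]
      exact h
  | succ d ih =>
    intro τ g hg u hu
    refine (SF.exists_le (p := fun k x => Di (g x) (diff g x) k (u x))
      (fun k => sf_Di ih k τ g hg u hu) (fun k k' x h1 h2 => h1.disjoint h2) d).congr
      (fun x => ?_)
    constructor
    · intro h
      exact Di.complete (fun y => rfl) h (fun n => cnt_le d hg.2 x (u x) n)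
    · rintro ⟨k, _, hk⟩
      exact Di.sound (fun y => rfl) hk

end Vale.Agent.P345h27
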