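import Mathlib

/-! # Single-fold Diophantine predicates: closure properties -/

namespace Vale.Agent.P345h27

/-- The value of an integer polynomial at a point with natural coordinates. -/
noncomputable def val {σ : Type} (P : MvPolynomial σ ℤ) (x : σ → ℕ) : ℤ :=
  MvPolynomial.eval (fun i => (x i : ℤ)) P

/-- `f` is a polynomial function with integer coefficients. -/
def PolyFn {σ : Type} (f : (σ → ℕ) → ℤ) : Prop :=
  ∃ P : MvPolynomial σ ℤ, ∀ x, val P x = f x

section poly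

variable {σ τ : Type}

theorem PolyFn.const (c : ℤ) : PolyFn (fun _ : σ → ℕ => c) :=
  ⟨MvPolynomial.C c, fun x => by simp [val]⟩

theorem PolyFn.coord (i : σ) : PolyFn (fun x : σ → ℕ => (x i : ℤ)) :=
  ⟨MvPolynomial.X i, fun x => by simp [val]⟩

theorem PolyFn.add {f g : (σ → ℕ) → ℤ} (hf : PolyFn f) (hg : PolyFn g) :
    PolyFn (fun x => f x + g x) := by
  obtain ⟨P, hP⟩ := hf
  obtain ⟨Q, hQ⟩ := hg
  exact ⟨P + Q, fun x => by show val (P + Q) x = f x + g x; rw [← hP, ← hQ]; simp [val]⟩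

theorem PolyFn.mul {f g : (σ → ℕ) → ℤ} (hf : PolyFn f) (hg : PolyFn g) :
    PolyFn (fun x => f x * g x) := by
  obtain ⟨P, hP⟩ := hf
  obtain ⟨Q, hQ⟩ := hg
  exact ⟨P * Q, fun x => by show val (P * Q) x = f x * g x; rw [← hP, ← hQ]; simp [val]⟩

theorem PolyFn.neg {f : (σ → ℕ) → ℤ} (hf : PolyFn f) : PolyFn (fun x => - f x) := by
  obtain ⟨P, hP⟩ := hf
  exact ⟨-P, fun x => by show val (-P) x = - f x; rw [← hP]; simp [val]⟩

theorem PolyFn.sub {f g : (σ → ℕ) → ℤ} (hf : PolyFn f) (hg : PolyFn g) :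
    PolyFn (fun x => f x - g x) := by
  obtain ⟨P, hP⟩ := hf
  obtain ⟨Q, hQ⟩ := hg
  exact ⟨P - Q, fun x => by show val (P - Q) x = f x - g x; rw [← hP, ← hQ]; simp [val]⟩

theorem PolyFn.sum {ι : Type} (s : Finset ι) {f : ι → (σ → ℕ) → ℤ}
    (hf : ∀ i ∈ s, PolyFn (f i)) : PolyFn (fun x => ∑ i ∈ s, f i x) := by
  classical
  induction s using Finset.induction_on with
  | empty => simpa using PolyFn.const 0
  | insert a s ha ih =>
    have h1 : PolyFn (f a) := hf a (Finset.mem_insert_self a s)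
    have h2 : PolyFn (fun x => ∑ i ∈ s, f i x) :=
      ih (fun i hi => hf i (Finset.mem_insert_of_mem hi))
    have h3 := h1.add h2
    have h4 : (fun x => ∑ i ∈ insert a s, f i x) = fun x => f a x + ∑ i ∈ s, f i x := by
      funext x
      rw [Finset.sum_insert ha]
    rw [h4]
    exact h3

theorem PolyFn.subst {f : (σ → ℕ) → ℤ} (hf : PolyFn f) {h : (τ → ℕ) → σ → ℕ}
    (hh : ∀ i, PolyFn (fun x => (h x i : ℤ))) : PolyFn (fun x => f (h x)) := by
  obtain ⟨P, hP⟩ := hf
  choose Q hQ using hh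
  refine ⟨MvPolynomial.bind₁ Q P, fun x => ?_⟩
  show val (MvPolynomial.bind₁ Q P) x = f (h x)
  rw [← hP]
  have h1 : (fun i => ((h x i : ℕ) : ℤ)) = fun i => MvPolynomial.eval (fun i => (x i : ℤ)) (Q i) := by
    funext i
    exact (hQ i x).symm
  unfold val
  rw [h1]
  exact MvPolynomial.eval₂Hom_bind₁ _ _ _ _

end poly

/-- Single-fold Diophantine predicates on natural tuples. -/
def SF {σ : Type} (p : (σ → ℕ) → Prop) : Prop :=
  ∃ (m : ℕ) (f : (σ ⊕ Fin m → ℕ) → ℤ), PolyFn f ∧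
    (∀ x, p x ↔ ∃ w : Fin m → ℕ, f (Sum.elim x w) = 0) ∧
    (∀ x w w', f (Sum.elim x w) = 0 → f (Sum.elim x w') = 0 → w = w')

section sf

variable {σ τ : Type}

theorem SF.of {β : Type} [Fintype β] {p : (σ → ℕ) → Prop} (f : (σ ⊕ β → ℕ) → ℤ) (hf : PolyFn f)
    (h1 : ∀ x, p x ↔ ∃ w : β → ℕ, f (Sum.elim x w) = 0)
    (h2 : ∀ x w w', f (Sum.elim x w) = 0 → f (Sum.elim x w') = 0 → w = w') : SF p := by
  classical
  set e : β ≃ Fin (Fintype.card β) := Fintype.equivFin β with he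
  have key : ∀ (x : σ → ℕ) (w : Fin (Fintype.card β) → ℕ),
      (fun i : σ ⊕ β => Sum.elim (fun j => (Sum.elim x w : _ → ℕ) (Sum.inl j))
        (fun b => (Sum.elim x w : σ ⊕ Fin (Fintype.card β) → ℕ) (Sum.inr (e b))) i)
        = Sum.elim x (w ∘ e) := by
    intro x w
    funext i
    rcases i with i | i <;> rfl
  refine ⟨Fintype.card β, fun z => f (Sum.elim (fun j => z (Sum.inl j))
    (fun b => z (Sum.inr (e b)))), ?_, ?_, ?_⟩
  · apply hf.subst
    rintro (i | i)
    · exact PolyFn.coord (Sum.inl i)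
    · exact PolyFn.coord (Sum.inr (e i))
  · intro x
    rw [h1 x]
    constructor
    · rintro ⟨w, hw⟩
      refine ⟨w ∘ e.symm, ?_⟩
      have hk := key x (w ∘ e.symm)
      have hk2 : (w ∘ e.symm) ∘ e = w := by funext b; simp
      rw [hk2] at hk
      exact (congrArg f hk).trans hw
    · rintro ⟨w, hw⟩
      exact ⟨w ∘ e, (congrArg f (key x w)).symm.trans hw⟩
  · intro x w w' hw hw'
    have hh := h2 x (w ∘ e) (w' ∘ e) ((congrArg f (key x w)).symm.trans hw)
      ((congrArg f (key x w')).symm.trans hw')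
    funext j
    have := congrFun hh (e.symm j)
    simpa using this

theorem SF.congr {p q : (σ → ℕ) → Prop} (hp : SF p) (h : ∀ x, q x ↔ p x) : SF q := by
  obtain ⟨m, f, hf, h1, h2⟩ := hp
  exact ⟨m, f, hf, fun x => (h x).trans (h1 x), h2⟩

theorem SF.eq_zero {f : (σ → ℕ) → ℤ} (hf : PolyFn f) : SF (fun x => f x = 0) := by
  refine SF.of (β := Empty) (fun z => f (fun i => z (Sum.inl i)))
    (hf.subst (fun i => PolyFn.coord (Sum.inl i))) ?_ ?_
  · intro x
    constructor
    · intro h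
      exact ⟨fun b => b.elim, h⟩
    · rintro ⟨_, h⟩
      exact h
  · intro x w w' _ _
    funext b
    exact b.elim

theorem SF.nonneg {f : (σ → ℕ) → ℤ} (hf : PolyFn f) : SF (fun x => 0 ≤ f x) := by
  refine SF.of (β := Unit) (fun z => f (fun i => z (Sum.inl i)) - (z (Sum.inr ()) : ℤ))
    ((hf.subst (fun i => PolyFn.coord (Sum.inl i))).sub (PolyFn.coord (Sum.inr ()))) ?_ ?_
  · intro x
    constructor
    · intro h
      refine ⟨fun _ => (f x).toNat, ?_⟩
      show f x - (((f x).toNat : ℕ) : ℤ) = 0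
      rw [Int.toNat_of_nonneg h, sub_self]
    · rintro ⟨w, h⟩
      have h' : f x - ((w () : ℕ) : ℤ) = 0 := h
      have : 0 ≤ ((w () : ℕ) : ℤ) := Int.natCast_nonneg _
      linarith
  · intro x w w' h h'
    have h1 : f x - ((w () : ℕ) : ℤ) = 0 := h
    have h2 : f x - ((w' () : ℕ) : ℤ) = 0 := h'
    funext b
    have h3 : ((w () : ℕ) : ℤ) = ((w' () : ℕ) : ℤ) := by linarith
    exact_mod_cast h3

theorem SF.neg_lt {f : (σ → ℕ) → ℤ} (hf : PolyFn f) : SF (fun x => f x < 0) := by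
  refine (SF.nonneg ((hf.neg).sub (PolyFn.const 1))).congr (fun x => ?_)
  constructor <;> intro h <;> omega

theorem SF.and {p q : (σ → ℕ) → Prop} (hp : SF p) (hq : SF q) : SF (fun x => p x ∧ q x) := by
  obtain ⟨m, f, hf, f1, f2⟩ := hp
  obtain ⟨k, g, hg, g1, g2⟩ := hq
  refine SF.of (β := Fin m ⊕ Fin k)
    (fun z => f (Sum.elim (fun i => z (Sum.inl i)) (fun j => z (Sum.inr (Sum.inl j))))
        * f (Sum.elim (fun i => z (Sum.inl i)) (fun j => z (Sum.inr (Sum.inl j))))
      + g (Sum.elim (fun i => z (Sum.inl i)) (fun j => z (Sum.inr (Sum.inr j))))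
        * g (Sum.elim (fun i => z (Sum.inl i)) (fun j => z (Sum.inr (Sum.inr j))))) ?_ ?_ ?_
  · have hf' : PolyFn (fun z : σ ⊕ (Fin m ⊕ Fin k) → ℕ =>
        f (Sum.elim (fun i => z (Sum.inl i)) (fun j => z (Sum.inr (Sum.inl j))))) := by
      apply hf.subst
      rintro (i | i)
      · exact PolyFn.coord (Sum.inl i)
      · exact PolyFn.coord (Sum.inr (Sum.inl i))
    have hg' : PolyFn (fun z : σ ⊕ (Fin m ⊕ Fin k) → ℕ =>
        g (Sum.elim (fun i => z (Sum.inl i)) (fun j => z (Sum.inr (Sum.inr j))))) := by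
      apply hg.subst
      rintro (i | i)
      · exact PolyFn.coord (Sum.inl i)
      · exact PolyFn.coord (Sum.inr (Sum.inr i))
    exact (hf'.mul hf').add (hg'.mul hg')
  · intro x
    constructor
    · rintro ⟨hp, hq⟩
      obtain ⟨w, hw⟩ := (f1 x).mp hp
      obtain ⟨v, hv⟩ := (g1 x).mp hq
      refine ⟨Sum.elim w v, ?_⟩
      show f (Sum.elim x w) * f (Sum.elim x w) + g (Sum.elim x v) * g (Sum.elim x v) = 0
      rw [hw, hv]; ring
    · rintro ⟨w, hw⟩
      have hw' : f (Sum.elim x (fun j => w (Sum.inl j))) * f (Sum.elim x (fun j => w (Sum.inl j)))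
        + g (Sum.elim x (fun j => w (Sum.inr j))) * g (Sum.elim x (fun j => w (Sum.inr j))) = 0 := hw
      have e1 : f (Sum.elim x (fun j => w (Sum.inl j))) = 0 := by
        nlinarith [mul_self_nonneg (f (Sum.elim x (fun j => w (Sum.inl j)))),
          mul_self_nonneg (g (Sum.elim x (fun j => w (Sum.inr j))))]
      have e2 : g (Sum.elim x (fun j => w (Sum.inr j))) = 0 := by
        rw [e1] at hw'
        nlinarith [mul_self_nonneg (g (Sum.elim x (fun j => w (Sum.inr j))))]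
      exact ⟨(f1 x).mpr ⟨_, e1⟩, (g1 x).mpr ⟨_, e2⟩⟩
  · intro x w w' hw hw'
    have split : ∀ w : Fin m ⊕ Fin k → ℕ,
        f (Sum.elim x (fun j => w (Sum.inl j))) * f (Sum.elim x (fun j => w (Sum.inl j)))
        + g (Sum.elim x (fun j => w (Sum.inr j))) * g (Sum.elim x (fun j => w (Sum.inr j))) = 0 →
        f (Sum.elim x (fun j => w (Sum.inl j))) = 0 ∧ g (Sum.elim x (fun j => w (Sum.inr j))) = 0 := by
      intro w hw'
      have e1 : f (Sum.elim x (fun j => w (Sum.inl j))) = 0 := by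
        nlinarith [mul_self_nonneg (f (Sum.elim x (fun j => w (Sum.inl j)))),
          mul_self_nonneg (g (Sum.elim x (fun j => w (Sum.inr j))))]
      have e2 : g (Sum.elim x (fun j => w (Sum.inr j))) = 0 := by
        rw [e1] at hw'
        nlinarith [mul_self_nonneg (g (Sum.elim x (fun j => w (Sum.inr j))))]
      exact ⟨e1, e2⟩
    obtain ⟨a1, a2⟩ := split w hw
    obtain ⟨b1, b2⟩ := split w' hw'
    have c1 := f2 x _ _ a1 b1
    have c2 := g2 x _ _ a2 b2
    funext j
    rcases j with j | j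
    · exact congrFun c1 j
    · exact congrFun c2 j

/-- Disjoint unions. -/
theorem SF.or {p q : (σ → ℕ) → Prop} (hp : SF p) (hq : SF q) (hd : ∀ x, p x → q x → False) :
    SF (fun x => p x ∨ q x) := by
  obtain ⟨m, f, hf, f1, f2⟩ := hp
  obtain ⟨k, g, hg, g1, g2⟩ := hq
  refine SF.of (β := Fin m ⊕ Fin k)
    (fun z => (f (Sum.elim (fun i => z (Sum.inl i)) (fun j => z (Sum.inr (Sum.inl j))))
        * f (Sum.elim (fun i => z (Sum.inl i)) (fun j => z (Sum.inr (Sum.inl j))))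
        + ∑ j : Fin k, (z (Sum.inr (Sum.inr j)) : ℤ))
      * (g (Sum.elim (fun i => z (Sum.inl i)) (fun j => z (Sum.inr (Sum.inr j))))
        * g (Sum.elim (fun i => z (Sum.inl i)) (fun j => z (Sum.inr (Sum.inr j))))
        + ∑ j : Fin m, (z (Sum.inr (Sum.inl j)) : ℤ))) ?_ ?_ ?_
  · have hf' : PolyFn (fun z : σ ⊕ (Fin m ⊕ Fin k) → ℕ =>
        f (Sum.elim (fun i => z (Sum.inl i)) (fun j => z (Sum.inr (Sum.inl j))))) := by
      apply hf.subst
      rintro (i | i)
      · exact PolyFn.coord (Sum.inl i)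
      · exact PolyFn.coord (Sum.inr (Sum.inl i))
    have hg' : PolyFn (fun z : σ ⊕ (Fin m ⊕ Fin k) → ℕ =>
        g (Sum.elim (fun i => z (Sum.inl i)) (fun j => z (Sum.inr (Sum.inr j))))) := by
      apply hg.subst
      rintro (i | i)
      · exact PolyFn.coord (Sum.inl i)
      · exact PolyFn.coord (Sum.inr (Sum.inr i))
    exact ((hf'.mul hf').add (PolyFn.sum _ (fun j _ => PolyFn.coord (Sum.inr (Sum.inr j))))).mul
      ((hg'.mul hg').add (PolyFn.sum _ (fun j _ => PolyFn.coord (Sum.inr (Sum.inl j)))))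
  · intro x
    constructor
    · rintro (hp | hq)
      · obtain ⟨w, hw⟩ := (f1 x).mp hp
        refine ⟨Sum.elim w (fun _ => 0), ?_⟩
        show (f (Sum.elim x w) * f (Sum.elim x w) + ∑ _j : Fin k, ((0 : ℕ) : ℤ)) * _ = 0
        rw [hw]; simp
      · obtain ⟨v, hv⟩ := (g1 x).mp hq
        refine ⟨Sum.elim (fun _ => 0) v, ?_⟩
        show _ * (g (Sum.elim x v) * g (Sum.elim x v) + ∑ _j : Fin m, ((0 : ℕ) : ℤ)) = 0
        rw [hv]; simp
    · rintro ⟨w, hw⟩
      have hw' : (f (Sum.elim x (fun j => w (Sum.inl j))) * f (Sum.elim x (fun j => w (Sum.inl j)))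
          + ∑ j : Fin k, ((w (Sum.inr j) : ℕ) : ℤ))
        * (g (Sum.elim x (fun j => w (Sum.inr j))) * g (Sum.elim x (fun j => w (Sum.inr j)))
          + ∑ j : Fin m, ((w (Sum.inl j) : ℕ) : ℤ)) = 0 := hw
      rcases mul_eq_zero.mp hw' with h | h
      · left
        have s0 : 0 ≤ ∑ j : Fin k, ((w (Sum.inr j) : ℕ) : ℤ) :=
          Finset.sum_nonneg (fun _ _ => Int.natCast_nonneg _)
        have e1 : f (Sum.elim x (fun j => w (Sum.inl j))) = 0 := by
          nlinarith [mul_self_nonneg (f (Sum.elim x (fun j => w (Sum.inl j))))]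
        exact (f1 x).mpr ⟨_, e1⟩
      · right
        have s0 : 0 ≤ ∑ j : Fin m, ((w (Sum.inl j) : ℕ) : ℤ) :=
          Finset.sum_nonneg (fun _ _ => Int.natCast_nonneg _)
        have e1 : g (Sum.elim x (fun j => w (Sum.inr j))) = 0 := by
          nlinarith [mul_self_nonneg (g (Sum.elim x (fun j => w (Sum.inr j))))]
        exact (g1 x).mpr ⟨_, e1⟩
  · intro x w w' hw hw'
    have split : ∀ w : Fin m ⊕ Fin k → ℕ,
        (f (Sum.elim x (fun j => w (Sum.inl j))) * f (Sum.elim x (fun j => w (Sum.inl j)))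
          + ∑ j : Fin k, ((w (Sum.inr j) : ℕ) : ℤ))
        * (g (Sum.elim x (fun j => w (Sum.inr j))) * g (Sum.elim x (fun j => w (Sum.inr j)))
          + ∑ j : Fin m, ((w (Sum.inl j) : ℕ) : ℤ)) = 0 →
        (f (Sum.elim x (fun j => w (Sum.inl j))) = 0 ∧ ∀ j, w (Sum.inr j) = 0) ∨
        (g (Sum.elim x (fun j => w (Sum.inr j))) = 0 ∧ ∀ j, w (Sum.inl j) = 0) := by
      intro w hw'
      rcases mul_eq_zero.mp hw' with h | h
      · left
        have s0 : 0 ≤ ∑ j : Fin k, ((w (Sum.inr j) : ℕ) : ℤ) :=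
          Finset.sum_nonneg (fun _ _ => Int.natCast_nonneg _)
        have e1 : f (Sum.elim x (fun j => w (Sum.inl j))) = 0 := by
          nlinarith [mul_self_nonneg (f (Sum.elim x (fun j => w (Sum.inl j))))]
        have e2 : ∑ j : Fin k, ((w (Sum.inr j) : ℕ) : ℤ) = 0 := by
          rw [e1] at h
          linarith
        refine ⟨e1, fun j => ?_⟩
        have := (Finset.sum_eq_zero_iff_of_nonneg (fun _ _ => Int.natCast_nonneg _)).mp e2 j
          (Finset.mem_univ j)
        exact_mod_cast this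
      · right
        have s0 : 0 ≤ ∑ j : Fin m, ((w (Sum.inl j) : ℕ) : ℤ) :=
          Finset.sum_nonneg (fun _ _ => Int.natCast_nonneg _)
        have e1 : g (Sum.elim x (fun j => w (Sum.inr j))) = 0 := by
          nlinarith [mul_self_nonneg (g (Sum.elim x (fun j => w (Sum.inr j))))]
        have e2 : ∑ j : Fin m, ((w (Sum.inl j) : ℕ) : ℤ) = 0 := by
          rw [e1] at h
          linarith
        refine ⟨e1, fun j => ?_⟩
        have := (Finset.sum_eq_zero_iff_of_nonneg (fun _ _ => Int.natCast_nonneg _)).mp e2 j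
          (Finset.mem_univ j)
        exact_mod_cast this
    rcases split w hw with ⟨a1, a2⟩ | ⟨a1, a2⟩ <;> rcases split w' hw' with ⟨b1, b2⟩ | ⟨b1, b2⟩
    · have c1 := f2 x _ _ a1 b1
      funext j
      rcases j with j | j
      · exact congrFun c1 j
      · rw [a2 j, b2 j]
    · exact (hd x ((f1 x).mpr ⟨_, a1⟩) ((g1 x).mpr ⟨_, b1⟩)).elim
    · exact (hd x ((f1 x).mpr ⟨_, b1⟩) ((g1 x).mpr ⟨_, a1⟩)).elim
    · have c1 := g2 x _ _ a1 b1
      funext j
      rcases j with j | j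
      · rw [a2 j, b2 j]
      · exact congrFun c1 j

/-- Pullback by polynomial maps. -/
theorem SF.subst {p : (σ → ℕ) → Prop} (hp : SF p) {h : (τ → ℕ) → σ → ℕ}
    (hh : ∀ i, PolyFn (fun x => (h x i : ℤ))) : SF (fun x => p (h x)) := by
  obtain ⟨m, f, hf, f1, f2⟩ := hp
  refine ⟨m, fun z => f (Sum.elim (h (fun i => z (Sum.inl i))) (fun j => z (Sum.inr j))), ?_,
    ?_, ?_⟩
  · apply hf.subst
    rintro (i | i)
    · exact (hh i).subst (h := fun (z : τ ⊕ Fin m → ℕ) (i : τ) => z (Sum.inl i))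
        (fun j => PolyFn.coord (Sum.inl j))
    · exact PolyFn.coord (Sum.inr i)
  · intro x
    exact f1 (h x)
  · intro x w w' hw hw'
    exact f2 (h x) w w' hw hw'

/-- Extend a tuple by one entry. -/
def ocons (t : ℕ) (x : σ → ℕ) : Option σ → ℕ
  | none => t
  | some i => x i

/-- Projection along a coordinate that is determined by the others. -/
theorem SF.exu {p : (Option σ → ℕ) → Prop} (hp : SF p)
    (hu : ∀ (x : σ → ℕ) (t t' : ℕ), p (ocons t x) → p (ocons t' x) → t = t') :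
    SF (fun x => ∃ t, p (ocons t x)) := by
  obtain ⟨m, f, hf, f1, f2⟩ := hp
  have key : ∀ (x : σ → ℕ) (w : Unit ⊕ Fin m → ℕ),
      (fun z : σ ⊕ (Unit ⊕ Fin m) → ℕ => (Sum.elim (ocons (z (Sum.inr (Sum.inl ())))
        (fun i => z (Sum.inl i))) (fun j => z (Sum.inr (Sum.inr j))) : Option σ ⊕ Fin m → ℕ))
        (Sum.elim x w) = Sum.elim (ocons (w (Sum.inl ())) x) (fun j => w (Sum.inr j)) := by
    intro x w
    rfl
  refine SF.of (β := Unit ⊕ Fin m)
    (fun z => f (Sum.elim (ocons (z (Sum.inr (Sum.inl ()))) (fun i => z (Sum.inl i)))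
      (fun j => z (Sum.inr (Sum.inr j))))) ?_ ?_ ?_
  · apply hf.subst
    rintro ((_ | i) | i)
    · exact PolyFn.coord (Sum.inr (Sum.inl ()))
    · exact PolyFn.coord (Sum.inl i)
    · exact PolyFn.coord (Sum.inr (Sum.inr i))
  · intro x
    constructor
    · rintro ⟨t, ht⟩
      obtain ⟨w, hw⟩ := (f1 _).mp ht
      exact ⟨Sum.elim (fun _ => t) w, hw⟩
    · rintro ⟨w, hw⟩
      exact ⟨w (Sum.inl ()), (f1 _).mpr ⟨fun j => w (Sum.inr j), hw⟩⟩
  · intro x w w' hw hw'
    have hw1 : f (Sum.elim (ocons (w (Sum.inl ())) x) (fun j => w (Sum.inr j))) = 0 := hw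
    have hw2 : f (Sum.elim (ocons (w' (Sum.inl ())) x) (fun j => w' (Sum.inr j))) = 0 := hw'
    have ht : w (Sum.inl ()) = w' (Sum.inl ()) :=
      hu x _ _ ((f1 _).mpr ⟨_, hw1⟩) ((f1 _).mpr ⟨_, hw2⟩)
    rw [ht] at hw1
    have h3 := f2 _ _ _ hw1 hw2
    funext j
    rcases j with j | j
    · exact ht
    · exact congrFun h3 j

theorem SF.true : SF (fun _ : σ → ℕ => True) :=
  (SF.eq_zero (PolyFn.const 0)).congr (fun _ => by simp)

theorem SF.false : SF (fun _ : σ → ℕ => False) :=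
  (SF.eq_zero (PolyFn.const 1)).congr (fun _ => by simp)

/-- Finite disjoint unions. -/
theorem SF.exists_le {p : ℕ → (σ → ℕ) → Prop} (hp : ∀ k, SF (p k))
    (hd : ∀ k k' x, p k x → p k' x → k = k') (K : ℕ) : SF (fun x => ∃ k, k ≤ K ∧ p k x) := by
  induction K with
  | zero =>
    refine (hp 0).congr (fun x => ?_)
    constructor
    · rintro ⟨k, hk, h⟩
      obtain rfl : k = 0 := by omega
      exact h
    · intro h
      exact ⟨0, le_refl 0, h⟩
  | succ K ih =>
    refine (ih.or (hp (K + 1)) ?_).congr (fun x => ?_)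
    · rintro x ⟨k, hk, h⟩ h'
      have := hd _ _ _ h h'
      omega
    · constructor
      · rintro ⟨k, hk, h⟩
        by_cases hk' : k ≤ K
        · exact Or.inl ⟨k, hk', h⟩
        · obtain rfl : k = K + 1 := by omega
          exact Or.inr h
      · rintro (⟨k, hk, h⟩ | h)
        · exact ⟨k, by omega, h⟩
        · exact ⟨K + 1, le_refl _, h⟩

end sf

end Vale.Agent.P345h27
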