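import Vale.Agent.Lib.P345h27.SF

/-! # Sign patterns of polynomial families in one variable -/

namespace Vale.Agent.P345h27

/-- The joint function of a family. -/
def joint {τ : Type} (g : (τ → ℕ) → ℕ → ℤ) : (Option τ → ℕ) → ℤ :=
  fun z => g (fun i => z (some i)) (z none)

/-- The forward difference. -/
def diff {τ : Type} (g : (τ → ℕ) → ℕ → ℤ) : (τ → ℕ) → ℕ → ℤ :=
  fun x y => g x (y + 1) - g x y

/-- Polynomial families whose `d`-th difference in the last variable is constant. -/
def DF {τ : Type} : ℕ → ((τ → ℕ) → ℕ → ℤ) → Prop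
  | 0, g => PolyFn (joint g) ∧ ∀ x y, g x (y + 1) = g x y
  | d + 1, g => PolyFn (joint g) ∧ DF d (diff g)

section df

variable {τ τ' : Type}

theorem DF.poly {d : ℕ} {g : (τ → ℕ) → ℕ → ℤ} (h : DF d g) : PolyFn (joint g) := by
  cases d with
  | zero => exact h.1
  | succ d => exact h.1

theorem joint_diff_poly {g : (τ → ℕ) → ℕ → ℤ} (h : PolyFn (joint g)) :
    PolyFn (joint (diff g)) := by
  have h1 : PolyFn (fun z : Option τ → ℕ =>
      joint g (ocons (z none + 1) (fun i => z (some i)))) := by
    apply h.subst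
    rintro (_ | i)
    · have e : (fun x : Option τ → ℕ => ((ocons (x none + 1) (fun i => x (some i)) none : ℕ) : ℤ))
          = fun x => ((x none : ℕ) : ℤ) + 1 := by
        funext x
        simp [ocons]
      rw [e]
      exact (PolyFn.coord none).add (PolyFn.const 1)
    · exact PolyFn.coord (some i)
  exact h1.sub h

theorem DF.const {d : ℕ} {c : (τ → ℕ) → ℤ} (hc : PolyFn c) : DF d (fun x (_ : ℕ) => c x) := by
  have hj : PolyFn (joint (fun x (_ : ℕ) => c x)) :=
    hc.subst (h := fun (z : Option τ → ℕ) (i : τ) => z (some i)) (fun i => PolyFn.coord (some i))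
  induction d generalizing c with
  | zero => exact ⟨hj, fun x y => rfl⟩
  | succ d ih =>
    refine ⟨hj, ?_⟩
    have e : diff (fun (x : τ → ℕ) (_ : ℕ) => c x) = fun x (_ : ℕ) => (0 : ℤ) := by
      funext x y
      simp [diff]
    rw [e]
    exact ih (PolyFn.const 0) (PolyFn.const 0)

theorem DF.add {d : ℕ} {g h : (τ → ℕ) → ℕ → ℤ} (hg : DF d g) (hh : DF d h) :
    DF d (fun x y => g x y + h x y) := by
  induction d generalizing g h with
  | zero =>
    refine ⟨hg.1.add hh.1, fun x y => ?_⟩
    show g x (y + 1) + h x (y + 1) = g x y + h x y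
    rw [hg.2, hh.2]
  | succ d ih =>
    refine ⟨hg.1.add hh.1, ?_⟩
    have e : diff (fun x y => g x y + h x y) = fun x y => diff g x y + diff h x y := by
      funext x y
      simp only [diff]
      ring
    rw [e]
    exact ih hg.2 hh.2

theorem DF.smul {d : ℕ} {g : (τ → ℕ) → ℕ → ℤ} {c : (τ → ℕ) → ℤ} (hc : PolyFn c) (hg : DF d g) :
    DF d (fun x y => c x * g x y) := by
  have hj : PolyFn (fun z : Option τ → ℕ => c (fun i => z (some i))) :=
    hc.subst (h := fun (z : Option τ → ℕ) (i : τ) => z (some i)) (fun i => PolyFn.coord (some i))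
  induction d generalizing g with
  | zero =>
    refine ⟨hj.mul hg.1, fun x y => ?_⟩
    show c x * g x (y + 1) = c x * g x y
    rw [hg.2]
  | succ d ih =>
    refine ⟨hj.mul hg.1, ?_⟩
    have e : diff (fun x y => c x * g x y) = fun x y => c x * diff g x y := by
      funext x y
      simp only [diff]
      ring
    rw [e]
    exact ih hg.2

theorem DF.succ {d : ℕ} {g : (τ → ℕ) → ℕ → ℤ} (hg : DF d g) : DF (d + 1) g := by
  induction d generalizing g with
  | zero =>
    refine ⟨hg.1, joint_diff_poly hg.1, fun x y => ?_⟩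
    simp only [diff]
    rw [hg.2, hg.2]
  | succ d ih => exact ⟨hg.1, ih hg.2⟩

theorem DF.mono {d e : ℕ} (hde : d ≤ e) {g : (τ → ℕ) → ℕ → ℤ} (hg : DF d g) : DF e g := by
  induction e, hde using Nat.le_induction with
  | base => exact hg
  | succ n _ ih => exact ih.succ

theorem DF.muly {d : ℕ} {g : (τ → ℕ) → ℕ → ℤ} (hg : DF d g) :
    DF (d + 1) (fun x y => (y : ℤ) * g x y) := by
  induction d generalizing g with
  | zero =>
    have hj : PolyFn (joint (fun x (y : ℕ) => (y : ℤ) * g x y)) :=
      (PolyFn.coord none).mul hg.1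
    refine ⟨hj, ?_⟩
    have e : diff (fun x (y : ℕ) => (y : ℤ) * g x y) = g := by
      funext x y
      simp only [diff]
      rw [hg.2]
      push_cast
      ring
    rw [e]
    exact hg
  | succ d ih =>
    have hj : PolyFn (joint (fun x (y : ℕ) => (y : ℤ) * g x y)) :=
      (PolyFn.coord none).mul hg.1
    refine ⟨hj, ?_⟩
    have e : diff (fun x (y : ℕ) => (y : ℤ) * g x y)
        = fun x (y : ℕ) => (y : ℤ) * diff g x y + (diff g x y + g x y) := by
      funext x y
      simp only [diff]
      push_cast
      ring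
    rw [e]
    exact (ih hg.2).add ((DF.succ hg.2).add hg)

theorem DF.pull {d : ℕ} {g : (τ → ℕ) → ℕ → ℤ} (hg : DF d g) {h : (τ' → ℕ) → τ → ℕ}
    (hh : ∀ i, PolyFn (fun x => (h x i : ℤ))) : DF d (fun x y => g (h x) y) := by
  have hpoly : ∀ g : (τ → ℕ) → ℕ → ℤ, PolyFn (joint g) →
      PolyFn (joint (fun (x : τ' → ℕ) y => g (h x) y)) := by
    intro g hg
    have := hg.subst (h := fun (z : Option τ' → ℕ) => ocons (z none) (h (fun i => z (some i)))) (by
      rintro (_ | i)
      · exact PolyFn.coord none
      · exact (hh i).subst (h := fun (z : Option τ' → ℕ) (i : τ') => z (some i))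
          (fun i => PolyFn.coord (some i)))
    exact this
  induction d generalizing g with
  | zero => exact ⟨hpoly g hg.1, fun x y => hg.2 _ _⟩
  | succ d ih => exact ⟨hpoly g hg.1, ih hg.2⟩

theorem DF.eval {d : ℕ} {g : (τ → ℕ) → ℕ → ℤ} (hg : DF d g) {u : (τ → ℕ) → ℕ}
    (hu : PolyFn (fun x => (u x : ℤ))) : PolyFn (fun x => g x (u x)) := by
  have := hg.poly.subst (h := fun (x : τ → ℕ) => ocons (u x) x) (by
    rintro (_ | i)
    · exact hu
    · exact PolyFn.coord i)
  exact this

/-- Every polynomial family has a constant iterated difference. -/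
theorem DF.exists {f : (Option τ → ℕ) → ℤ} (hf : PolyFn f) :
    ∃ d, DF d (fun x y => f (ocons y x)) := by
  obtain ⟨P, hP⟩ := hf
  have key : ∀ P : MvPolynomial (Option τ) ℤ, ∃ d, DF d (fun x y => val P (ocons y x)) := by
    intro P
    induction P using MvPolynomial.induction_on with
    | C a =>
      refine ⟨0, ?_⟩
      have e : (fun (x : τ → ℕ) (y : ℕ) => val (MvPolynomial.C a) (ocons y x))
          = fun x (_ : ℕ) => a := by
        funext x y
        simp [val]
      rw [e]
      exact DF.const (PolyFn.const a)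
    | add p q hp hq =>
      obtain ⟨d, hd⟩ := hp
      obtain ⟨e, he⟩ := hq
      refine ⟨max d e, ?_⟩
      have e : (fun (x : τ → ℕ) (y : ℕ) => val (p + q) (ocons y x))
          = fun x y => val p (ocons y x) + val q (ocons y x) := by
        funext x y
        simp [val]
      rw [e]
      exact (hd.mono (le_max_left _ _)).add (he.mono (le_max_right _ _))
    | mul_X p i hp =>
      obtain ⟨d, hd⟩ := hp
      refine ⟨d + 1, ?_⟩
      rcases i with _ | i
      · have e : (fun (x : τ → ℕ) (y : ℕ) => val (p * MvPolynomial.X none) (ocons y x))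
            = fun x (y : ℕ) => (y : ℤ) * val p (ocons y x) := by
          funext x y
          simp [val, ocons, mul_comm]
        rw [e]
        exact hd.muly
      · have e : (fun (x : τ → ℕ) (y : ℕ) => val (p * MvPolynomial.X (some i)) (ocons y x))
            = fun x (y : ℕ) => (x i : ℤ) * val p (ocons y x) := by
          funext x y
          simp [val, ocons, mul_comm]
        rw [e]
        exact (DF.smul (PolyFn.coord i) hd).succ
  obtain ⟨d, hd⟩ := key P
  refine ⟨d, ?_⟩
  have e : (fun (x : τ → ℕ) (y : ℕ) => f (ocons y x)) = fun x y => val P (ocons y x) := by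
    funext x y
    rw [hP]
  rw [e]
  exact hd

end df

/-! ## Counting sign changes of a sequence -/

/-- The number of sign changes of `g` among the indices `u, …, u + n`. -/
def cnt (g : ℕ → ℤ) (u : ℕ) : ℕ → ℕ
  | 0 => 0
  | n + 1 => cnt g u n + if (0 ≤ g (u + n) ↔ 0 ≤ g (u + n + 1)) then 0 else 1

theorem cnt_add (g : ℕ → ℤ) (u a b : ℕ) : cnt g u (a + b) = cnt g u a + cnt g (u + a) b := by
  induction b with
  | zero => simp [cnt]
  | succ b ih =>
    rw [← Nat.add_assoc, cnt, ih, cnt, Nat.add_assoc u a b, Nat.add_assoc (cnt g u a)]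

theorem cnt_le_diff (g : ℕ → ℤ) (u n : ℕ) :
    cnt g u (n + 1) ≤ cnt (fun y => g (y + 1) - g y) u n + 1 ∧
      (cnt g u (n + 1) = cnt (fun y => g (y + 1) - g y) u n + 1 →
        (0 ≤ g (u + n + 1) - g (u + n) ↔ 0 ≤ g (u + n + 1))) := by
  induction n with
  | zero =>
    simp only [cnt, Nat.add_zero, Nat.zero_add]
    constructor
    · split_ifs <;> omega
    · intro h
      split_ifs at h with h1
      omega
  | succ n ih =>
    obtain ⟨ih1, ih2⟩ := ih
    have e1 : cnt g u (n + 1 + 1) = cnt g u (n + 1) +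
      if (0 ≤ g (u + (n + 1)) ↔ 0 ≤ g (u + (n + 1) + 1)) then 0 else 1 := rfl
    have e2 : cnt (fun y => g (y + 1) - g y) u (n + 1) = cnt (fun y => g (y + 1) - g y) u n +
      if (0 ≤ g (u + n + 1) - g (u + n) ↔ 0 ≤ g (u + n + 1 + 1) - g (u + n + 1)) then 0 else 1 := rfl
    rw [e1, e2]
    have e3 : u + (n + 1) = u + n + 1 := rfl
    rw [e3]
    generalize g (u + n) = a at *
    generalize g (u + n + 1) = b at *
    generalize g (u + n + 1 + 1) = c at *
    generalize cnt g u (n + 1) = C at *
    generalize cnt (fun y => g (y + 1) - g y) u n = K at *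
    constructor
    · by_cases hC : C = K + 1
      · have h3 := ih2 hC
        split_ifs with h1 h2 h2
        · omega
        · omega
        · exfalso
          omega
        · omega
      · split_ifs <;> omega
    · intro h
      by_cases hC : C = K + 1
      · have h3 := ih2 hC
        split_ifs at h with h1 h2 h2 <;> omega
      · split_ifs at h with h1 h2 h2 <;> omega

theorem cnt_const {g : ℕ → ℤ} (hg : ∀ y, g (y + 1) = g y) (u n : ℕ) : cnt g u n = 0 := by
  induction n with
  | zero => rfl
  | succ n ih =>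
    rw [cnt, ih, if_pos]
    rw [hg]

theorem cnt_le {τ : Type} (d : ℕ) {g : (τ → ℕ) → ℕ → ℤ} (hg : DF d g) (x : τ → ℕ) (u n : ℕ) :
    cnt (g x) u n ≤ d := by
  induction d generalizing g u n with
  | zero => rw [cnt_const (hg.2 x)]
  | succ d ih =>
    cases n with
    | zero => exact Nat.zero_le _
    | succ n =>
      have h1 := (cnt_le_diff (g x) u n).1
      have h2 := ih hg.2 u n
      have h3 : cnt (fun y => g x (y + 1) - g x y) u n = cnt (diff g x) u n := rfl
      rw [h3] at h1
      omega

end Vale.Agent.P345h27
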